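import Vale.Agent.Lib.P154.Pot

/-!
Four-state ferromagnetic Potts channel: basic definitions for the potential.
`y : Fin 4 → ℝ` is a normalised likelihood vector (nonnegative, sum `4`).
-/

namespace Vale.Agent.Lib.P154.Q4

open scoped BigOperators

/-- normalised vectors -/
def Nrm (y : Fin 4 → ℝ) : Prop := (∀ i, 0 ≤ y i) ∧ ∑ i, y i = 4

/-- relative entropy (nats) of `y/4` with respect to the uniform law -/
noncomputable def ent (y : Fin 4 → ℝ) : ℝ := (∑ i, y i * Real.log (y i)) / 4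

noncomputable def I2 (y : Fin 4 → ℝ) : ℝ := (∑ i, (y i - 1) ^ 2) / 4

noncomputable def I3 (y : Fin 4 → ℝ) : ℝ := (∑ i, (y i - 1) ^ 3) / 24

noncomputable def I4 (y : Fin 4 → ℝ) : ℝ := (12 * I2 y ^ 2 - ∑ i, (y i - 1) ^ 4) / 8

/-- side functional: half chi-square minus relative entropy -/
noncomputable def zeta (y : Fin 4 → ℝ) : ℝ := I2 y / 2 - ent y

/-- weight of the side functional in the merging inequality for the side functional -/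
noncomputable def kap (y : Fin 4 → ℝ) : ℝ := (1 - I2 y / 3) ^ 3

/-- weight of the side functional in the merging inequality for the main functional -/
noncomputable def eta (y : Fin 4 → ℝ) : ℝ := 4 * (I2 y / 3) * (1 - I2 y / 3) * (1 - I3 y)

/-- mean of `y * z∘g` -/
noncomputable def Sg (y z : Fin 4 → ℝ) (g : Equiv.Perm (Fin 4)) : ℝ := (∑ i, y i * z (g i)) / 4

/-- variance of `y * z∘g` -/
noncomputable def Vg (y z : Fin 4 → ℝ) (g : Equiv.Perm (Fin 4)) : ℝ :=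
  (∑ i, (y i * z (g i)) ^ 2) / 4 - Sg y z g ^ 2

noncomputable def avg (F : Equiv.Perm (Fin 4) → ℝ) : ℝ := (∑ g, F g) / 24

/-- features of a normalised vector -/
noncomputable def feat (y : Fin 4 → ℝ) : ℕ → ℝ
  | 0 => 1
  | 1 => I2 y
  | 2 => I3 y
  | 3 => I2 y ^ 2
  | 4 => I4 y
  | 5 => I2 y * I3 y
  | 6 => I2 y ^ 3
  | 7 => I3 y ^ 2
  | 8 => I2 y * I4 y
  | 9 => I2 y ^ 2 * I3 y
  | 10 => I3 y * I4 y
  | _ => 0

/-- bilinear form given by a sparse matrix -/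
noncomputable def bil (T : List (ℕ × ℕ × ℚ)) (φ ψ : ℕ → ℝ) : ℝ :=
  (T.map fun e => (e.2.2 : ℝ) * φ e.1 * ψ e.2.1).sum

/-- `avg (Sg - 1) ^ k` as a bilinear form, `k = 0, ..., 7` -/
def Rtab : List (List (ℕ × ℕ × ℚ)) := [
  [(0, 0, 1)],
  [],
  [(1, 1, 1/3)],
  [(2, 2, 6)],
  [(3, 3, 1/2), (3, 4, -1/2), (4, 3, -1/2), (4, 4, 5/6)],
  [(5, 5, 20/3)],
  [(6, 6, 17/24), (6, 7, -17/4), (6, 8, -7/8), (7, 6, -17/4), (7, 7, 231/2), (7, 8, 21/4),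
   (8, 6, -7/8), (8, 7, 21/4), (8, 8, 11/8)],
  [(9, 9, 35/3), (9, 10, -35/3), (10, 9, -35/3), (10, 10, 77/3)]]

/-- `avg ((Sg - 1) ^ k * Vg)` as a bilinear form, `k = 0, ..., 5` -/
def Qtab : List (List (ℕ × ℕ × ℚ)) := [
  [(0, 1, 1), (1, 0, 1), (1, 1, 2/3)],
  [(1, 1, 2/3), (1, 2, 4), (2, 1, 4), (2, 2, 6)],
  [(1, 3, 1/3), (2, 2, 12), (2, 3, 4), (2, 4, -4), (3, 1, 1/3), (3, 2, 4), (3, 3, 1/2),
   (3, 4, -1/6), (4, 2, -4), (4, 3, -1/6), (4, 4, -1/6)],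
  [(2, 5, 6), (3, 3, 1), (3, 4, -1), (3, 5, 4), (4, 3, -1), (4, 4, 5/3), (4, 5, -8/3), (5, 2, 6),
   (5, 3, 4), (5, 4, -8/3), (5, 5, 26/3)],
  [(3, 6, 1/2), (3, 8, -1/2), (4, 6, -1/2), (4, 8, 5/6), (5, 5, 40/3), (5, 6, 8/3), (5, 7, 32),
   (5, 8, -8/3), (6, 3, 1/2), (6, 4, -1/2), (6, 5, 8/3), (6, 6, 11/24), (6, 7, 1/4),
   (6, 8, -7/24), (7, 5, 32), (7, 6, 1/4), (7, 7, 105/2), (7, 8, -5/4), (8, 3, -1/2),
   (8, 4, 5/6), (8, 5, -8/3), (8, 6, -7/24), (8, 7, -5/4), (8, 8, 1/8)],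
  [(5, 9, 20/3), (6, 6, 17/12), (6, 7, -17/2), (6, 8, -7/4), (6, 9, 10/3), (6, 10, -2/3),
   (7, 6, -17/2), (7, 7, 231), (7, 8, 21/2), (7, 9, 40), (7, 10, -56), (8, 6, -7/4),
   (8, 7, 21/2), (8, 8, 11/4), (8, 9, -10/3), (8, 10, 2), (9, 5, 20/3), (9, 6, 10/3), (9, 7, 40),
   (9, 8, -10/3), (9, 9, 35/3), (9, 10, -5), (10, 6, -2/3), (10, 7, -56), (10, 8, 2),
   (10, 9, -5), (10, 10, 17/3)]]

end Vale.Agent.Lib.P154.Q4
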