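import Vale.Agent.Lib.P154.Ineq4.Check
import Vale.Agent.Lib.P154.Ineq4.SliceA

/-! cells (A) -/

namespace Vale.Agent.Lib.P154.Q4.Net

set_option maxRecDepth 100000

def DSA : ℤ := 4294967296

theorem DSA_pos : 0 < DSA := by decide

theorem RA0_ok : RIntOK 6 RA0 (((0 : ℤ) : ℝ) / 16) (((5 : ℤ) : ℝ) / 16) :=
  rint_of 5 RA0 0 5 (by decide) (by decide +kernel)

theorem RA0_len : RA0.length = 6 := by decide +kernel

theorem RA1_ok : RIntOK 8 RA1 (((5 : ℤ) : ℝ) / 16) (((10 : ℤ) : ℝ) / 16) :=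
  rint_of 7 RA1 5 10 (by decide) (by decide +kernel)

theorem RA1_len : RA1.length = 8 := by decide +kernel

theorem RA2_ok : RIntOK 8 RA2 (((10 : ℤ) : ℝ) / 16) (((13 : ℤ) : ℝ) / 16) :=
  rint_of 7 RA2 10 13 (by decide) (by decide +kernel)

theorem RA2_len : RA2.length = 8 := by decide +kernel

theorem RA3_ok : RIntOK 8 RA3 (((13 : ℤ) : ℝ) / 16) (((14 : ℤ) : ℝ) / 16) :=
  rint_of 7 RA3 13 14 (by decide) (by decide +kernel)

theorem RA3_len : RA3.length = 8 := by decide +kernel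

theorem RA4_ok : RIntOK 8 RA4 (((14 : ℤ) : ℝ) / 16) (((15 : ℤ) : ℝ) / 16) :=
  rint_of 7 RA4 14 15 (by decide) (by decide +kernel)

theorem RA4_len : RA4.length = 8 := by decide +kernel

theorem RA5_ok : RIntOK 8 RA5 (((15 : ℤ) : ℝ) / 16) (((16 : ℤ) : ℝ) / 16) :=
  rint_of 7 RA5 15 16 (by decide) (by decide +kernel)

theorem RA5_len : RA5.length = 8 := by decide +kernel

def cA0 : Cell := ⟨RA0, zS SA0, MZ, [0, 2147530056, -4295025096, 1072959900, -715306600, -4281671600, 1079746136, 7403973504, -925496688, -7848488200, 3139395280],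
  [0, 0, 0, 0, 0, 0]⟩
def xA0 : CI := ⟨cA0, 6, true, 5, 9⟩
def oA0 : OC := ⟨1073741824, [0, 1073741824, 536882514, -178959379, 89413325, -53520895, 38562362, -28030315],
  [0, 1073741824, 536882514, -178959379, 89413325, -53520895, 38562362, -28030315],
  2048, 1408, [⟨0, 0, 0, 1936⟩, ⟨0, 0, 0, 2763⟩], 2048, 1408, [⟨0, 0, 0, 1936⟩, ⟨0, 0, 0, 2763⟩]⟩
def cA1 : Cell := ⟨RA1, SA0, MF, [46844, 2148662692, -4287825216, 1019622096, -679748064, -4232868640, 1558285568, 10685386752, -1335673344, -10189783800, 4075913520],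
  [0, 0, 0, 0, 0, 0, 0, 0]⟩
def xA1 : CI := ⟨cA1, 8, false, 10, 9⟩
def oA1 : OC := ⟨1073741824, [11711, 1073707804, 537165673, -178659384, 84968508, -52910858, 55653056, -36392085],
  [11711, 1073707804, 537165673, -178659384, 84968508, -52910858, 55653056, -36392085],
  1024, 384, [⟨0, 2, 0, 390⟩, ⟨0, 2, 1, 868⟩, ⟨0, 1, 1, 1739⟩], 1024, 384, [⟨0, 2, 0, 390⟩, ⟨0, 2, 1, 868⟩, ⟨0, 1, 1, 1739⟩]⟩
def cA2 : Cell := ⟨RA2, SA0, MF, [46088, 2147264248, -4298361288, 1092173880, -728115920, -4434669920, 837022088, 5739580032, -717447504, -2368680160, 947472064],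
  [534356928, -3363872752, 8039662365, -8715166705, 3697197462, -55433374, -29893646, -8459572]⟩
def xA2 : CI := ⟨cA2, 8, false, 13, 9⟩
def oA2 : OC := ⟨1073741824, [11522, 1073746622, 536816062, -179098387, 91014490, -55433374, 29893646, -8459572],
  [534368450, 4437619374, 8576478427, 8536068318, 3788211952],
  4096, 2601, [⟨0, 2, 1, 3520⟩, ⟨0, 1, 1, 7814⟩], 16, 3, [⟨0, 2, 0, 6⟩]⟩
def cA3 : Cell := ⟨RA3, SA0, MF, [49736, 2147109564, -4300255656, 1098887064, -732591376, -4462209360, 813544592, 5578591488, -697323936, -2152521560, 861008624],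
  [8191603929, -41487611617, 79297420390, -67977050608, 22199655838, -55777617, -29055164, -7687577]⟩
def xA3 : CI := ⟨cA3, 8, false, 14, 9⟩
def oA3 : OC := ⟨1073741824, [12434, 1073751193, 536777391, -179177319, 91573922, -55777617, 29055164, -7687577],
  [8191616363, 42561362810, 79834197781, 67797873289, 22291229760],
  2048, 1243, [⟨0, 2, 1, 1824⟩, ⟨0, 1, 1, 4050⟩], 16, 2, [⟨0, 3, 0, 3⟩]⟩
def cA4 : Cell := ⟨RA4, SA0, MF, [54100, 2146945736, -4301850672, 1105187712, -736791808, -4500635920, 803973268, 5512959552, -689119944, -2037421400, 814968560],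
  [56303903415, -259899684742, 451180155408, -349447122953, 102103534334, -56257949, -28713331, -7276505]⟩
def xA4 : CI := ⟨cA4, 8, false, 15, 9⟩
def oA4 : OC := ⟨1073741824, [13525, 1073756045, 536736434, -179243778, 92098976, -56257949, 28713331, -7276505],
  [56303916940, 260973440787, 451716891842, 349267879175, 102195633310],
  4096, 2371, [⟨0, 2, 1, 3776⟩, ⟨0, 1, 1, 8386⟩], 16, 1, [⟨0, 5, 1, 2⟩]⟩
def cA5 : Cell := ⟨RA5, SA0, MF, [60768, 2146725816, -4303845648, 1112627124, -741751416, -4543816480, 794585036, 5448583104, -681072888, -1929025280, 771610112],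
  [4200918906188, -17652415970307, 27820336670551, -19490607167007, 5122032591810, -56797706, -28378037, -6889376]⟩
def xA5 : CI := ⟨cA5, 8, false, 16, 9⟩
def oA5 : OC := ⟨1073741824, [15192, 1073762972, 536681454, -179326902, 92718927, -56797706, 28378037, -6889376],
  [4200918921380, 17653489733279, 27820873352005, 19490427840105, 5122125310737],
  256, 141, [⟨0, 0, 0, 298⟩, ⟨1, 0, 0, 542⟩], 16, 0, [⟨0, 6, 1, 1⟩]⟩
def cA6 : Cell := ⟨RA0, zS SA1, MZ, [0, 2147529060, -4294676376, 1073583216, -715722144, -4361127520, 1063218800, 7290643200, -911330400, -5496970920, 2198788368],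
  [0, 0, 0, 0, 0, 0]⟩
def xA6 : CI := ⟨cA6, 6, true, 5, 13⟩
def oA6 : OC := ⟨1073741824, [0, 1073741824, 536882265, -178944849, 89465268, -54514094, 37972100, -19632039],
  [0, 1073741824, 536882265, -178944849, 89465268, -54514094, 37972100, -19632039],
  4096, 2816, [⟨0, 0, 0, 4480⟩, ⟨0, 1, 1, 5971⟩], 4096, 2816, [⟨0, 0, 0, 4480⟩, ⟨0, 1, 1, 5971⟩]⟩
def cA7 : Cell := ⟨RA1, SA1, MF, [60548, 2148179608, -4256291928, 1036383156, -690922104, -4925547520, 1471839628, 10092614592, -1261576824, -6318561200, 2527424480],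
  [0, 0, 0, 0, 0, 0, 0, 0]⟩
def xA7 : CI := ⟨cA7, 8, false, 10, 13⟩
def oA7 : OC := ⟨1073741824, [15137, 1073668239, 537044902, -177345497, 86365263, -61569344, 52565701, -22566290],
  [15137, 1073668239, 537044902, -177345497, 86365263, -61569344, 52565701, -22566290],
  2048, 768, [⟨0, 2, 0, 796⟩, ⟨0, 2, 1, 1768⟩, ⟨0, 1, 1, 3923⟩], 2048, 768, [⟨0, 2, 0, 796⟩, ⟨0, 2, 1, 1768⟩, ⟨0, 1, 1, 3923⟩]⟩
def cA8 : Cell := ⟨RA2, SA1, MF, [185440, 2144760020, -4228443048, 1106622564, -737748376, -5486995360, 1229958408, 8434000512, -1054250064, -3536176840, 1414470736],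
  [534322090, -3364017345, 8040288422, -8712253445, 3695993405, -68587442, -43927086, -12629203]⟩
def xA8 : CI := ⟨cA8, 8, false, 13, 13⟩
def oA8 : OC := ⟨1073741824, [46360, 1073602029, 536190005, -176185127, 92218547, -68587442, 43927086, -12629203],
  [534368450, 4437619374, 8576478427, 8536068318, 3788211952],
  4096, 1431, [⟨0, 2, 0, 1792⟩, ⟨0, 2, 1, 4480⟩, ⟨1, 0, 0, 8971⟩], 16, 3, [⟨0, 2, 0, 6⟩]⟩
def cA9 : Cell := ⟨RA3, SA1, MF, [379152, 2142594948, -4178074512, 1116095580, -744063720, -5906308240, 1315913788, 9023408832, -1127926104, -3560322640, 1424129056],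
  [8191521575, -41487937556, 79298549044, -67971959727, 22198221795, -73828853, -46996921, -12715438]⟩
def xA9 : CI := ⟨cA9, 8, false, 14, 13⟩
def oA9 : OC := ⟨1073741824, [94788, 1073425254, 535648737, -174086438, 93007965, -73828853, 46996921, -12715438],
  [8191616363, 42561362810, 79834197781, 67797873289, 22291229760],
  2048, 613, [⟨0, 2, 0, 632⟩, ⟨0, 2, 1, 2096⟩, ⟨1, 0, 0, 4673⟩], 16, 2, [⟨0, 3, 0, 3⟩]⟩
def cA10 : Cell := ⟨RA4, SA1, MF, [652364, 2139900920, -4121274672, 1126861152, -751240768, -6348359760, 1412318292, 9684468288, -1210558536, -3660953240, 1464381296],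
  [56303753849, -259900241895, 451181916612, -349439598953, 102101728214, -79354497, -50439939, -13074833]⟩
def xA10 : CI := ⟨cA10, 8, false, 15, 13⟩
def oA10 : OC := ⟨1073741824, [163091, 1073198892, 534975230, -171719778, 93905096, -79354497, 50439939, -13074833],
  [56303916940, 260973440787, 451716891842, 349267879175, 102195633310],
  4096, 1021, [⟨0, 4, 1, 1168⟩, ⟨0, 2, 1, 3904⟩, ⟨1, 0, 0, 9721⟩], 16, 1, [⟨0, 5, 1, 2⟩]⟩
def cA11 : Cell := ⟨RA5, SA1, MF, [1124720, 2135900872, -4038258120, 1138531752, -759021168, -6916874080, 1541550752, 10570633728, -1321329216, -3845371320, 1538148528],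
  [4200918640200, -17652416909814, 27820339376787, -19490596100860, 5122030433091, -86460926, -55055384, -13733469]⟩
def xA11 : CI := ⟨cA11, 8, false, 16, 13⟩
def oA11 : OC := ⟨1073741824, [281180, 1072823465, 533975218, -168260755, 94877646, -86460926, 55055384, -13733469],
  [4200918921380, 17653489733279, 27820873352005, 19490427840105, 5122125310737],
  512, 102, [⟨0, 4, 1, 151⟩, ⟨0, 2, 1, 504⟩, ⟨1, 0, 0, 1262⟩], 16, 0, [⟨0, 6, 1, 1⟩]⟩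
def cA12 : Cell := ⟨RA0, zS SA2, MZ, [0, 2147533360, -4294501896, 1073241444, -715494296, -4370444640, 1066317056, 7311888384, -913986048, -5418018480, 2167207392],
  [0, 0, 0, 0, 0, 0]⟩
def xA12 : CI := ⟨cA12, 6, true, 5, 16⟩
def oA12 : OC := ⟨1073741824, [0, 1073741824, 536883340, -178937579, 89436787, -54630558, 38082752, -19350066],
  [0, 1073741824, 536883340, -178937579, 89436787, -54630558, 38082752, -19350066],
  4096, 2816, [⟨0, 0, 0, 4672⟩, ⟨0, 1, 1, 6231⟩], 4096, 2816, [⟨0, 0, 0, 4672⟩, ⟨0, 1, 1, 6231⟩]⟩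
def cA13 : Cell := ⟨RA1, SA2, MF, [109316, 2147204296, -4231074000, 1055310744, -703540496, -5252988800, 1397877628, 9585446592, -1198180824, -4966002160, 1986400864],
  [0, 0, 0, 0, 0, 0, 0, 0]⟩
def xA13 : CI := ⟨cA13, 8, false, 10, 16⟩
def oA13 : OC := ⟨1073741824, [27329, 1073594696, 536801074, -176294750, 87942562, -65662360, 49924201, -17735722],
  [27329, 1073594696, 536801074, -176294750, 87942562, -65662360, 49924201, -17735722],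
  2048, 768, [⟨0, 2, 0, 840⟩, ⟨0, 2, 1, 1680⟩, ⟨0, 1, 1, 4183⟩], 2048, 768, [⟨0, 2, 0, 840⟩, ⟨0, 2, 1, 1680⟩, ⟨0, 1, 1, 4183⟩]⟩
def cA14 : Cell := ⟨RA2, SA2, MF, [964164, 2143122304, -3976741656, 1021340712, -680893808, -6927704960, 1869912100, 12822254400, -1602781800, -5463923920, 2185569568],
  [534127409, -3365186447, 8040697851, -8701765887, 3703100226, -86596312, -66782575, -19514014]⟩
def xA14 : CI := ⟨cA14, 8, false, 13, 16⟩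
def oA14 : OC := ⟨1073741824, [241041, 1072432927, 535780576, -165697569, 85111726, -86596312, 66782575, -19514014],
  [534368450, 4437619374, 8576478427, 8536068318, 3788211952],
  4096, 768, [⟨0, 4, 1, 1160⟩, ⟨0, 2, 1, 3872⟩, ⟨1, 0, 0, 9647⟩], 16, 3, [⟨0, 2, 0, 6⟩]⟩
def cA15 : Cell := ⟨RA3, SA2, MF, [2593076, 2139951048, -3658933920, 949928340, -633285560, -8280610800, 2294334196, 15732577344, -1966572168, -6302085720, 2520834288],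
  [8190968094, -41490992044, 79299210019, -67950328869, 22212069065, -103507635, -81940507, -22507449]⟩
def xA15 : CI := ⟨cA15, 8, false, 14, 16⟩
def oA15 : OC := ⟨1073741824, [648269, 1070370766, 534987762, -152455580, 79160695, -103507635, 81940507, -22507449],
  [8191616363, 42561362810, 79834197781, 67797873289, 22291229760],
  2048, 256, [⟨0, 4, 1, 604⟩, ⟨0, 2, 1, 2016⟩, ⟨1, 0, 0, 5037⟩], 16, 2, [⟨0, 3, 0, 3⟩]⟩
def cA16 : Cell := ⟨RA4, SA2, MF, [5656564, 2135335348, -3162177288, 829149372, -552766248, -10199896000, 2943394524, 20183276736, -2522909592, -7805692440, 3122276976],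
  [56302502799, -259906724308, 451183058005, -349399636562, 102126537529, -127498700, -105121233, -27877473]⟩
def xA16 : CI := ⟨cA16, 8, false, 15, 16⟩
def oA16 : OC := ⟨1073741824, [1414141, 1066716479, 533833837, -131757387, 69095781, -127498700, 105121233, -27877473],
  [56303916940, 260973440787, 451716891842, 349267879175, 102195633310],
  4096, 256, [⟨0, 6, 1, 336⟩, ⟨0, 3, 1, 1680⟩, ⟨0, 2, 1, 4192⟩, ⟨1, 0, 0, 10501⟩], 16, 1, [⟨0, 5, 1, 2⟩]⟩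
def cA17 : Cell := ⟨RA5, SA2, MF, [16352188, 2125189768, -1611316656, 407437584, -271625056, -15687249600, 4928436660, 33794994240, -4224374280, -12779939480, 5111975792],
  [4200914833333, -17652435518346, 27820342054563, -19490494978299, 5122091357605, -196090620, -176015595, -45642641]⟩
def xA17 : CI := ⟨cA17, 8, false, 16, 16⟩
def oA17 : OC := ⟨1073741824, [4088047, 1054214933, 531297442, -67138194, 33953132, -196090620, 176015595, -45642641],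
  [4200918921380, 17653489733279, 27820873352005, 19490427840105, 5122125310737],
  256, 0, [⟨0, 1, 0, 204⟩, ⟨1, 0, 0, 683⟩], 16, 0, [⟨0, 6, 1, 1⟩]⟩
def cA18 : Cell := ⟨RA0, zS SA3, MZ, [0, 2147529312, -4294423344, 1075141368, -716760912, -4400260480, 1023331764, 7017132096, -877141512, -4491837560, 1796735024],
  [0, 0, 0, 0, 0, 0]⟩
def xA18 : CI := ⟨cA18, 6, true, 5, 20⟩
def oA18 : OC := ⟨1073741824, [0, 1073741824, 536882328, -178934306, 89595114, -55003256, 36547563, -16042277],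
  [0, 1073741824, 536882328, -178934306, 89595114, -55003256, 36547563, -16042277],
  2048, 1408, [⟨0, 0, 0, 2288⟩, ⟨0, 1, 1, 3263⟩], 2048, 1408, [⟨0, 0, 0, 2288⟩, ⟨0, 1, 1, 3263⟩]⟩
def cA19 : Cell := ⟨RA1, SA3, MF, [145132, 2146252348, -4215664944, 1079171628, -719447752, -5465987920, 1303149316, 8935881024, -1116985128, -3937044160, 1574817664],
  [0, 0, 0, 0, 0, 0, 0, 0]⟩
def xA19 : CI := ⟨cA19, 8, false, 10, 20⟩
def oA19 : OC := ⟨1073741824, [36283, 1073559517, 536563087, -175652706, 89930969, -68324849, 46541047, -14060872],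
  [36283, 1073559517, 536563087, -175652706, 89930969, -68324849, 46541047, -14060872],
  1024, 384, [⟨0, 3, 1, 492⟩, ⟨0, 0, 0, 1232⟩, ⟨1, 0, 0, 2239⟩], 1024, 384, [⟨0, 3, 1, 492⟩, ⟨0, 0, 0, 1232⟩, ⟨1, 0, 0, 2239⟩]⟩
def cA20 : Cell := ⟨RA2, SA3, MF, [1083460, 2143697024, -3876474504, 1037821740, -691881160, -7446034880, 1828632092, 12539191488, -1567398936, -4652656960, 1861062784],
  [534097585, -3365586297, 8040554171, -8697588089, 3701726807, -93075436, -65308289, -16616632]⟩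
def xA20 : CI := ⟨cA20, 8, false, 13, 20⟩
def oA20 : OC := ⟨1073741824, [270865, 1072033077, 535924256, -161519771, 86485145, -93075436, 65308289, -16616632],
  [534368450, 4437619374, 8576478427, 8536068318, 3788211952],
  2048, 384, [⟨0, 3, 0, 468⟩, ⟨0, 3, 1, 1168⟩, ⟨0, 2, 1, 2336⟩, ⟨1, 0, 0, 5207⟩], 16, 3, [⟨0, 2, 0, 6⟩]⟩
def cA21 : Cell := ⟨RA3, SA3, MF, [2638956, 2143834248, -3468191928, 970951260, -647300840, -9070302000, 2241899940, 15373028160, -1921628520, -5306909160, 2122763664],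
  [8190956624, -41491810039, 79298239219, -67942381286, 22210317155, -113378775, -80067855, -18953247]⟩
def xA21 : CI := ⟨cA21, 8, false, 14, 20⟩
def oA21 : OC := ⟨1073741824, [659739, 1069552771, 535958562, -144507997, 80912605, -113378775, 80067855, -18953247],
  [8191616363, 42561362810, 79834197781, 67797873289, 22291229760],
  1024, 128, [⟨0, 4, 1, 328⟩, ⟨0, 2, 1, 1088⟩, ⟨1, 0, 0, 2725⟩], 16, 2, [⟨0, 3, 0, 3⟩]⟩
def cA22 : Cell := ⟨RA4, SA3, MF, [5753100, 2143278168, -2827577520, 854548884, -569699256, -11386950560, 2885160068, 19783954752, -2472994344, -6564343520, 2625737408],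
  [56302478665, -259908400352, 451181072300, -349385694905, 102124420903, -142336882, -103041431, -23444084]⟩
def xA22 : CI := ⟨cA22, 8, false, 15, 20⟩
def oA22 : OC := ⟨1073741824, [1438275, 1065040435, 535819542, -117815730, 71212407, -142336882, 103041431, -23444084],
  [56303916940, 260973440787, 451716891842, 349267879175, 102195633310],
  2048, 128, [⟨0, 6, 1, 228⟩, ⟨0, 3, 1, 1136⟩, ⟨0, 0, 0, 2848⟩, ⟨0, 0, 1, 5693⟩], 16, 1, [⟨0, 5, 1, 2⟩]⟩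
def cA23 : Cell := ⟨RA5, SA3, MF, [16713616, 2146943532, -816024696, 438156204, -292104136, -18104053280, 4858658392, 33316514688, -4164564336, -10723721960, 4289488784],
  [4200914742976, -17652440192498, 27820336616122, -19490461841134, 5122088797720, -226300666, -173523514, -38299007]⟩
def xA23 : CI := ⟨cA23, 8, false, 16, 20⟩
def oA23 : OC := ⟨1073741824, [4178404, 1049540781, 536735883, -34001029, 36513017, -226300666, 173523514, -38299007],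
  [4200918921380, 17653489733279, 27820873352005, 19490427840105, 5122125310737],
  128, 0, [⟨0, 3, 1, 56⟩, ⟨0, 0, 0, 186⟩, ⟨0, 0, 1, 371⟩], 16, 0, [⟨0, 6, 1, 1⟩]⟩
def cA24 : Cell := ⟨RA0, zS SA4, MZ, [0, 2147527404, -4294575192, 1077321528, -718214352, -4412393120, 975266096, 6687538944, -835942368, -3762491600, 1504996640],
  [0, 0, 0, 0, 0, 0]⟩
def xA24 : CI := ⟨cA24, 6, true, 5, 26⟩
def oA24 : OC := ⟨1073741824, [0, 1073741824, 536881851, -178940633, 89776794, -55154914, 34830932, -13437470],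
  [0, 1073741824, 536881851, -178940633, 89776794, -55154914, 34830932, -13437470],
  4096, 2816, [⟨0, 0, 0, 4480⟩, ⟨0, 1, 1, 6901⟩], 4096, 2816, [⟨0, 0, 0, 4480⟩, ⟨0, 1, 1, 6901⟩]⟩
def cA25 : Cell := ⟨RA1, SA4, MF, [193808, 2144489016, -4216359096, 1120407672, -746938448, -5557206560, 1145456760, 7854560640, -981820080, -2894103240, 1157641296],
  [0, 0, 0, 0, 0, 0, 0, 0]⟩
def xA25 : CI := ⟨cA25, 8, false, 10, 26⟩
def oA25 : OC := ⟨1073741824, [48452, 1073568587, 536122254, -175681629, 93367306, -69465082, 40909170, -10336083],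
  [48452, 1073568587, 536122254, -175681629, 93367306, -69465082, 40909170, -10336083],
  2048, 768, [⟨0, 2, 0, 872⟩, ⟨0, 2, 1, 2176⟩, ⟨1, 0, 0, 4853⟩], 2048, 768, [⟨0, 2, 0, 872⟩, ⟨0, 2, 1, 2176⟩, ⟨1, 0, 0, 4853⟩]⟩
def cA26 : Cell := ⟨RA2, SA4, MF, [328084, 2160119336, -3766684944, 1002379536, -668253024, -7890700720, 1832886160, 12568362240, -1571045280, -4159938160, 1663975264],
  [534286429, -3365117184, 8036448593, -8693013524, 3704680324, -98633759, -65460220, -14856922]⟩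
def xA26 : CI := ⟨cA26, 8, false, 13, 26⟩
def oA26 : OC := ⟨1073741824, [82021, 1072502190, 540029834, -156945206, 83531628, -98633759, 65460220, -14856922],
  [534368450, 4437619374, 8576478427, 8536068318, 3788211952],
  4096, 768, [⟨0, 3, 0, 912⟩, ⟨0, 1, 0, 2272⟩, ⟨0, 0, 0, 5696⟩, ⟨0, 0, 1, 11389⟩], 16, 3, [⟨0, 2, 0, 6⟩]⟩
def cA27 : Cell := ⟨RA3, SA4, MF, [70600, 2234618548, -3046349208, 631798152, -421198768, -10198043280, 2654465660, 18202050240, -2275256280, -5822221160, 2328888464],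
  [8191598713, -41488429173, 79275543144, -67924804506, 22238579914, -127475541, -94802345, -20793647]⟩
def xA27 : CI := ⟨cA27, 8, false, 14, 26⟩
def oA27 : OC := ⟨1073741824, [17650, 1072933637, 558654637, -126931217, 52649846, -127475541, 94802345, -20793647],
  [8191616363, 42561362810, 79834197781, 67797873289, 22291229760],
  2048, 256, [⟨0, 2, 0, 808⟩, ⟨0, 2, 1, 2688⟩, ⟨0, 0, 1, 5975⟩], 16, 2, [⟨0, 3, 0, 3⟩]⟩
def cA28 : Cell := ⟨RA4, SA4, MF, [105712, 2320246492, -2064548976, 266434512, -177623008, -13142226560, 3519108236, 24131027904, -3016378488, -7388088400, 2955235360],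
  [56303890512, -259901412136, 451136830219, -349353902049, 102173430434, -164277832, -125682437, -26386030]⟩
def xA28 : CI := ⟨cA28, 8, false, 15, 26⟩
def oA28 : OC := ⟨1073741824, [26428, 1072028651, 580061623, -86022874, 22202876, -164277832, 125682437, -26386030],
  [56303916940, 260973440787, 451716891842, 349267879175, 102195633310],
  4096, 256, [⟨0, 6, 1, 400⟩, ⟨0, 3, 1, 2000⟩, ⟨0, 2, 1, 4992⟩, ⟨0, 0, 1, 12511⟩], 16, 1, [⟨0, 5, 1, 2⟩]⟩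
def cA29 : Cell := ⟨RA5, SA4, MF, [234972, 2613920172, 1054115520, -974750892, 649833928, -21808032800, 6233755444, 42745751616, -5343218952, -12659209080, 5063683632],
  [4200918862637, -17652420909957, 27820219871962, -19490383918625, 5122206539978, -272600410, -222634123, -45211461]⟩
def xA29 : CI := ⟨cA29, 8, false, 16, 26⟩
def oA29 : OC := ⟨1073741824, [58743, 1068823322, 653480043, 43921480, -81229241, -272600410, 222634123, -45211461],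
  [4200918921380, 17653489733279, 27820873352005, 19490427840105, 5122125310737],
  256, 0, [⟨0, 3, 1, 98⟩, ⟨0, 2, 1, 326⟩, ⟨0, 0, 1, 817⟩], 16, 0, [⟨0, 6, 1, 1⟩]⟩
def cA30 : Cell := ⟨RA0, zS SA5, MZ, [0, 2147526864, -4295234688, 1080300744, -720200496, -4403884560, 911682268, 6251535552, -781441944, -3060381520, 1224152608],
  [0, 0, 0, 0, 0, 0]⟩
def xA30 : CI := ⟨cA30, 6, true, 5, 36⟩
def oA30 : OC := ⟨1073741824, [0, 1073741824, 536881716, -178968112, 90025062, -55048557, 32560081, -10929934],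
  [0, 1073741824, 536881716, -178968112, 90025062, -55048557, 32560081, -10929934],
  4096, 2816, [⟨0, 0, 0, 4816⟩, ⟨0, 1, 1, 7421⟩], 4096, 2816, [⟨0, 0, 0, 4816⟩, ⟨0, 1, 1, 7421⟩]⟩
def cA31 : Cell := ⟨RA1, SA5, MF, [836004, 2136407188, -4277115912, 1216691568, -811127712, -5379662240, 845675236, 5798915904, -724864488, -1608612600, 643445040],
  [0, 0, 0, 0, 0, 0, 0, 0]⟩
def xA31 : CI := ⟨cA31, 8, false, 10, 36⟩
def oA31 : OC := ⟨1073741824, [209001, 1073877125, 534101797, -178213163, 101390964, -67245778, 30202687, -5745045],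
  [209001, 1073877125, 534101797, -178213163, 101390964, -67245778, 30202687, -5745045],
  2048, 768, [⟨0, 2, 0, 856⟩, ⟨0, 2, 1, 2144⟩, ⟨1, 0, 0, 5373⟩], 2048, 768, [⟨0, 2, 0, 856⟩, ⟨0, 2, 1, 2144⟩, ⟨1, 0, 0, 5373⟩]⟩
def cA32 : Cell := ⟨RA2, SA5, MF, [4266044, 2107295152, -3863379984, 1353982968, -902655312, -7841524480, 1259070764, 8633628096, -1079203512, -2123323440, 849329376],
  [533301939, -3365876755, 8049654639, -8697042484, 3675380038, -98019056, -44966813, -7583298]⟩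
def xA32 : CI := ⟨cA32, 8, false, 13, 36⟩
def oA32 : OC := ⟨1073741824, [1066511, 1071742619, 526823788, -160974166, 112831914, -98019056, 44966813, -7583298],
  [534368450, 4437619374, 8576478427, 8536068318, 3788211952],
  4096, 768, [⟨0, 3, 0, 1016⟩, ⟨0, 3, 1, 2544⟩, ⟨0, 1, 1, 6368⟩, ⟨0, 0, 1, 12741⟩], 16, 3, [⟨0, 2, 0, 6⟩]⟩
def cA33 : Cell := ⟨RA3, SA5, MF, [78940, 2253957108, -2573578008, 804553680, -536369120, -11376117520, 2373515200, 16275532800, -2034441600, -4265675400, 1706270160],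
  [8191596628, -41488643307, 79270708504, -67905105706, 22224183620, -142201469, -84768400, -15234555]⟩
def xA33 : CI := ⟨cA33, 8, false, 14, 36⟩
def oA33 : OC := ⟨1073741824, [19735, 1072719503, 563489277, -107232417, 67046140, -142201469, 84768400, -15234555],
  [8191616363, 42561362810, 79834197781, 67797873289, 22291229760],
  2048, 256, [⟨0, 2, 0, 808⟩, ⟨0, 2, 1, 2688⟩, ⟨0, 0, 1, 6703⟩], 16, 2, [⟨0, 3, 0, 3⟩]⟩
def cA34 : Cell := ⟨RA4, SA5, MF, [67012, 2367075412, -1230813936, 508921764, -339281176, -14942752400, 3160398276, 21671302464, -2708912808, -5437859840, 2175143936],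
  [56303900187, -259900949723, 451125122989, -349319163089, 102153223163, -186784405, -112871367, -19420928]⟩
def xA34 : CI := ⟨cA34, 8, false, 15, 36⟩
def oA34 : OC := ⟨1073741824, [16753, 1072491064, 591768853, -51283914, 42410147, -186784405, 112871367, -19420928],
  [56303916940, 260973440787, 451716891842, 349267879175, 102195633310],
  4096, 256, [⟨0, 6, 1, 340⟩, ⟨0, 3, 1, 1696⟩, ⟨0, 2, 1, 5632⟩, ⟨0, 0, 1, 14071⟩], 16, 1, [⟨0, 5, 1, 2⟩]⟩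
def cA35 : Cell := ⟨RA5, SA5, MF, [115660, 2732019124, 2992930560, -454232004, 302821336, -25474833040, 5556627916, 38102591424, -4762823928, -9196794600, 3678717840],
  [4200918892465, -17652419536323, 27820190347224, -19490303134665, 5122163163404, -318435413, -198450997, -32845695]⟩
def xA35 : CI := ⟨cA35, 8, false, 16, 36⟩
def oA35 : OC := ⟨1073741824, [28915, 1070196956, 683004781, 124705440, -37852667, -318435413, 198450997, -32845695],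
  [4200918921380, 17653489733279, 27820873352005, 19490427840105, 5122125310737],
  256, 0, [⟨0, 3, 1, 118⟩, ⟨0, 2, 1, 294⟩, ⟨0, 1, 1, 736⟩, ⟨0, 0, 1, 921⟩], 16, 0, [⟨0, 6, 1, 1⟩]⟩
def cA36 : Cell := ⟨RA0, zS SA6, MZ, [0, 2147530528, -4296254112, 1083103404, -722068936, -4375748880, 850008432, 5828629248, -728578656, -2533039320, 1013215728],
  [0, 0, 0, 0, 0, 0]⟩
def xA36 : CI := ⟨cA36, 6, true, 5, 48⟩
def oA36 : OC := ⟨1073741824, [0, 1073741824, 536882632, -179010588, 90258617, -54696861, 30357444, -9046569],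
  [0, 1073741824, 536882632, -179010588, 90258617, -54696861, 30357444, -9046569],
  128, 88, [⟨0, 0, 0, 149⟩, ⟨0, 1, 1, 248⟩], 128, 88, [⟨0, 0, 0, 149⟩, ⟨0, 1, 1, 248⟩]⟩
def cA37 : Cell := ⟨RA1, SA6, MF, [2801712, 2125085980, -4376771640, 1300377216, -866918144, -5139983840, 655061148, 4491847872, -561480984, -992649000, 397059600],
  [0, 0, 0, 0, 0, 0, 0, 0]⟩
def xA37 : CI := ⟨cA37, 8, false, 10, 48⟩
def oA37 : OC := ⟨1073741824, [700428, 1074981559, 531271495, -182365485, 108364768, -64249798, 23395041, -3545175],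
  [700428, 1074981559, 531271495, -182365485, 108364768, -64249798, 23395041, -3545175],
  256, 96, [⟨0, 1, 0, 199⟩, ⟨0, 1, 1, 442⟩, ⟨0, 0, 1, 736⟩], 256, 96, [⟨0, 1, 0, 199⟩, ⟨0, 1, 1, 442⟩, ⟨0, 0, 1, 736⟩]⟩
def cA38 : Cell := ⟨RA2, SA6, MF, [55011340, 1951894340, -4508966904, 1887552288, -1258368192, -7404066400, 763587384, 5236027776, -654503472, -873141360, 349256544],
  [520615615, -3350154853, 8088504842, -8723941939, 3630915928, -92550830, -27270978, -3118362]⟩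
def xA38 : CI := ⟨cA38, 8, false, 13, 48⟩
def oA38 : OC := ⟨1073741824, [13752835, 1087464521, 487973585, -187873621, 157296024, -92550830, 27270978, -3118362],
  [534368450, 4437619374, 8576478427, 8536068318, 3788211952],
  128, 24, [⟨0, 3, 1, 53⟩, ⟨0, 1, 0, 132⟩, ⟨0, 0, 1, 440⟩], 16, 3, [⟨0, 2, 0, 6⟩]⟩
def cA39 : Cell := ⟨RA3, SA6, MF, [113134724, 1749179752, -3381682992, 2259469332, -1506312888, -11260960560, 1276847992, 8755529088, -1094441136, -1506516200, 602606480],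
  [8163332682, -41485114213, 79396902843, -67938776747, 22102940649, -140762007, -45601714, -5380415]⟩
def xA39 : CI := ⟨cA39, 8, false, 14, 48⟩
def oA39 : OC := ⟨1073741824, [28283681, 1076248597, 437294938, -140903458, 188289111, -140762007, 45601714, -5380415],
  [8191616363, 42561362810, 79834197781, 67797873289, 22291229760],
  64, 8, [⟨0, 2, 0, 28⟩, ⟨0, 2, 1, 93⟩, ⟨0, 0, 1, 232⟩], 16, 2, [⟨0, 3, 0, 3⟩]⟩
def cA40 : Cell := ⟨RA4, SA6, MF, [252222728, 1381696352, -2263027632, 2918011908, -1945341272, -15569623840, 1719825688, 11793090432, -1474136304, -1931295520, 772518208],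
  [56240861258, -259901145279, 451371467754, -349362171993, 101952465651, -194620298, -61422346, -6897484]⟩
def xA40 : CI := ⟨cA40, 8, false, 15, 48⟩
def oA40 : OC := ⟨1073741824, [63055682, 1072295508, 345424088, -94292818, 243167659, -194620298, 61422346, -6897484],
  [56303916940, 260973440787, 451716891842, 349267879175, 102195633310],
  512, 32, [⟨0, 6, 1, 35⟩, ⟨0, 4, 1, 176⟩, ⟨0, 0, 0, 880⟩, ⟨0, 0, 1, 1952⟩], 16, 1, [⟨0, 5, 1, 2⟩]⟩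
def cA41 : Cell := ⟨RA5, SA6, MF, [812785276, 41603076, 2282197752, 4992305640, -3328203760, -30251971600, 3301018532, 22635555648, -2829444456, -3558197440, 1423278976],
  [4200715725061, -17652446462019, 27820862951236, -19490332748532, 5121709285267, -378149645, -117893519, -12707848]⟩
def xA41 : CI := ⟨cA41, 8, false, 16, 48⟩
def oA41 : OC := ⟨1073741824, [203196319, 1043271260, 10400769, 95091573, 416025470, -378149645, 117893519, -12707848],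
  [4200918921380, 17653489733279, 27820873352005, 19490427840105, 5122125310737],
  128, 0, [⟨0, 4, 1, 34⟩, ⟨0, 3, 1, 113⟩, ⟨1, 0, 0, 282⟩, ⟨0, 0, 1, 512⟩], 16, 0, [⟨0, 6, 1, 1⟩]⟩

def ciA : List CI := [xA0, xA1, xA2, xA3, xA4, xA5, xA6, xA7, xA8, xA9, xA10, xA11, xA12, xA13, xA14, xA15, xA16, xA17, xA18, xA19, xA20, xA21, xA22, xA23, xA24, xA25, xA26, xA27, xA28, xA29, xA30, xA31, xA32, xA33, xA34, xA35, xA36, xA37, xA38, xA39, xA40, xA41]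

def MXA : List ℕ := [1137097443685193197705841564712960, 3411292331055579593117524694138880, 1137097443685193197705841564712960, 10233876993166738779352574082416640, 3411292331055579593117524694138880, 3411292331055579593117524694138880, 30701630979500216338057722247249920, 1137097443685193197705841564712960, 10233876993166738779352574082416640, 10233876993166738779352574082416640, 3411292331055579593117524694138880]
def MXDA : ℕ := 19752814034874523967651463246139883520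
def MXTA : List ℕ := [1137097443685193197705841564712960, 3411292331055579593117524694138880, 1137097443685193197705841564712960, 10233876993166738779352574082416640, 3411292331055579593117524694138880, 3411292331055579593117524694138880, 30701630979500216338057722247249920, 1137097443685193197705841564712960, 10233876993166738779352574082416640, 10233876993166738779352574082416640, 3411292331055579593117524694138880, 19752814034874523967651463246139883520]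

theorem ciA_chk : cellsChk 4294967296 MXA MXDA ciA = true := by decide +kernel

theorem ciA_ok : CellsOK DSA MXTA ciA :=
  cellsOK_of 4294967296 MXA MXDA ciA rfl ciA_chk

theorem oA0_ok : upOK DSA xA0 0 (-256) 286 oA0 = true := by decide +kernel
theorem oA1_ok : upOK DSA xA1 5 (-256) 286 oA1 = true := by decide +kernel
theorem oA2_ok : upOK DSA xA2 10 (-115) 286 oA2 = true := by decide +kernel
theorem oA3_ok : upOK DSA xA3 13 (-115) 286 oA3 = true := by decide +kernel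
theorem oA4_ok : upOK DSA xA4 14 (-115) 286 oA4 = true := by decide +kernel
theorem oA5_ok : upOK DSA xA5 15 (-115) 286 oA5 = true := by decide +kernel
theorem oA6_ok : upOK DSA xA6 0 (-256) 375 oA6 = true := by decide +kernel
theorem oA7_ok : upOK DSA xA7 5 (-256) 375 oA7 = true := by decide +kernel
theorem oA8_ok : upOK DSA xA8 10 (-205) 375 oA8 = true := by decide +kernel
theorem oA9_ok : upOK DSA xA9 13 (-205) 375 oA9 = true := by decide +kernel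
theorem oA10_ok : upOK DSA xA10 14 (-205) 375 oA10 = true := by decide +kernel
theorem oA11_ok : upOK DSA xA11 15 (-205) 375 oA11 = true := by decide +kernel
theorem oA12_ok : upOK DSA xA12 0 (-256) 427 oA12 = true := by decide +kernel
theorem oA13_ok : upOK DSA xA13 5 (-256) 427 oA13 = true := by decide +kernel
theorem oA14_ok : upOK DSA xA14 10 (-256) 427 oA14 = true := by decide +kernel
theorem oA15_ok : upOK DSA xA15 13 (-256) 427 oA15 = true := by decide +kernel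
theorem oA16_ok : upOK DSA xA16 14 (-256) 427 oA16 = true := by decide +kernel
theorem oA17_ok : upOK DSA xA17 15 (-256) 427 oA17 = true := by decide +kernel
theorem oA18_ok : upOK DSA xA18 0 (-256) 486 oA18 = true := by decide +kernel
theorem oA19_ok : upOK DSA xA19 5 (-256) 486 oA19 = true := by decide +kernel
theorem oA20_ok : upOK DSA xA20 10 (-256) 486 oA20 = true := by decide +kernel
theorem oA21_ok : upOK DSA xA21 13 (-256) 486 oA21 = true := by decide +kernel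
theorem oA22_ok : upOK DSA xA22 14 (-256) 486 oA22 = true := by decide +kernel
theorem oA23_ok : upOK DSA xA23 15 (-256) 486 oA23 = true := by decide +kernel
theorem oA24_ok : upOK DSA xA24 0 (-256) 561 oA24 = true := by decide +kernel
theorem oA25_ok : upOK DSA xA25 5 (-256) 561 oA25 = true := by decide +kernel
theorem oA26_ok : upOK DSA xA26 10 (-256) 561 oA26 = true := by decide +kernel
theorem oA27_ok : upOK DSA xA27 13 (-256) 561 oA27 = true := by decide +kernel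
theorem oA28_ok : upOK DSA xA28 14 (-256) 561 oA28 = true := by decide +kernel
theorem oA29_ok : upOK DSA xA29 15 (-256) 561 oA29 = true := by decide +kernel
theorem oA30_ok : upOK DSA xA30 0 (-256) 665 oA30 = true := by decide +kernel
theorem oA31_ok : upOK DSA xA31 5 (-256) 665 oA31 = true := by decide +kernel
theorem oA32_ok : upOK DSA xA32 10 (-256) 665 oA32 = true := by decide +kernel
theorem oA33_ok : upOK DSA xA33 13 (-256) 665 oA33 = true := by decide +kernel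
theorem oA34_ok : upOK DSA xA34 14 (-256) 665 oA34 = true := by decide +kernel
theorem oA35_ok : upOK DSA xA35 15 (-256) 665 oA35 = true := by decide +kernel
theorem oA36_ok : upOK DSA xA36 0 (-256) 768 oA36 = true := by decide +kernel
theorem oA37_ok : upOK DSA xA37 5 (-256) 768 oA37 = true := by decide +kernel
theorem oA38_ok : upOK DSA xA38 10 (-256) 768 oA38 = true := by decide +kernel
theorem oA39_ok : upOK DSA xA39 13 (-256) 768 oA39 = true := by decide +kernel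
theorem oA40_ok : upOK DSA xA40 14 (-256) 768 oA40 = true := by decide +kernel
theorem oA41_ok : upOK DSA xA41 15 (-256) 768 oA41 = true := by decide +kernel

theorem rpA0 {y : Fin 4 → ℝ} {r : ℝ} {x : Fin 3 → ℝ} (hf : Face y r x)
    (h0 : ((0 : ℤ) : ℝ) / 16 ≤ r) (h1 : r ≤ ((5 : ℤ) : ℝ) / 16) (h2 : (1 / 3 : ℝ) ≤ xQ x)
    (h3 : xQ x ≤ (9 / 16 : ℝ)) : Nonempty (Rep (15 * 6) DSA (AA * BB * DSA) cA0 true
      (fe y (Dh DSA cA0 y r))) :=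
  rep_z (c := cA0) (p := 6) (S := SA0) DSA_pos RA0_ok SA0_ok rfl rfl RA0_len (nth_allZ rfl) rfl
    hf h0 h1 h2 h3

theorem cdA0 {y : Fin 4 → ℝ} (hy : ∑ i, y i = 4) {r : ℝ} {x : Fin 3 → ℝ} (hf : Face y r x)
    (h0 : ((0 : ℤ) : ℝ) / 16 ≤ r) (h1 : r ≤ ((5 : ℤ) : ℝ) / 16) (h2 : (1 / 3 : ℝ) ≤ xQ x)
    (h3 : xQ x ≤ (9 / 16 : ℝ)) : CellData DSA (· ≤ ·) xA0 y :=
  cellData_up (X := xA0) (DS := DSA) DSA_pos oA0_ok hy hf h0 h1 (h3.trans (by norm_num [xA0]))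
    (rpA0 hf h0 h1 h2 h3)

theorem rpA1 {y : Fin 4 → ℝ} {r : ℝ} {x : Fin 3 → ℝ} (hf : Face y r x)
    (h0 : ((5 : ℤ) : ℝ) / 16 ≤ r) (h1 : r ≤ ((10 : ℤ) : ℝ) / 16) (h2 : (1 / 3 : ℝ) ≤ xQ x)
    (h3 : xQ x ≤ (9 / 16 : ℝ)) : Nonempty (Rep (15 * 8) DSA (AA * BB * DSA) cA1 false
      (fe y (Dh DSA cA1 y r))) :=
  rep_nz (c := cA1) (p := 8) DSA_pos RA1_ok SA0_ok rfl RA1_len hf h0 h1 h2 h3

theorem cdA1 {y : Fin 4 → ℝ} (hy : ∑ i, y i = 4) {r : ℝ} {x : Fin 3 → ℝ} (hf : Face y r x)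
    (h0 : ((5 : ℤ) : ℝ) / 16 ≤ r) (h1 : r ≤ ((10 : ℤ) : ℝ) / 16) (h2 : (1 / 3 : ℝ) ≤ xQ x)
    (h3 : xQ x ≤ (9 / 16 : ℝ)) : CellData DSA (· ≤ ·) xA1 y :=
  cellData_up (X := xA1) (DS := DSA) DSA_pos oA1_ok hy hf h0 h1 (h3.trans (by norm_num [xA1]))
    (rpA1 hf h0 h1 h2 h3)

theorem rpA2 {y : Fin 4 → ℝ} {r : ℝ} {x : Fin 3 → ℝ} (hf : Face y r x)
    (h0 : ((10 : ℤ) : ℝ) / 16 ≤ r) (h1 : r ≤ ((13 : ℤ) : ℝ) / 16) (h2 : (1 / 3 : ℝ) ≤ xQ x)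
    (h3 : xQ x ≤ (9 / 16 : ℝ)) : Nonempty (Rep (15 * 8) DSA (AA * BB * DSA) cA2 false
      (fe y (Dh DSA cA2 y r))) :=
  rep_nz (c := cA2) (p := 8) DSA_pos RA2_ok SA0_ok rfl RA2_len hf h0 h1 h2 h3

theorem cdA2 {y : Fin 4 → ℝ} (hy : ∑ i, y i = 4) {r : ℝ} {x : Fin 3 → ℝ} (hf : Face y r x)
    (h0 : ((10 : ℤ) : ℝ) / 16 ≤ r) (h1 : r ≤ ((13 : ℤ) : ℝ) / 16) (h2 : (1 / 3 : ℝ) ≤ xQ x)
    (h3 : xQ x ≤ (9 / 16 : ℝ)) : CellData DSA (· ≤ ·) xA2 y :=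
  cellData_up (X := xA2) (DS := DSA) DSA_pos oA2_ok hy hf h0 h1 (h3.trans (by norm_num [xA2]))
    (rpA2 hf h0 h1 h2 h3)

theorem rpA3 {y : Fin 4 → ℝ} {r : ℝ} {x : Fin 3 → ℝ} (hf : Face y r x)
    (h0 : ((13 : ℤ) : ℝ) / 16 ≤ r) (h1 : r ≤ ((14 : ℤ) : ℝ) / 16) (h2 : (1 / 3 : ℝ) ≤ xQ x)
    (h3 : xQ x ≤ (9 / 16 : ℝ)) : Nonempty (Rep (15 * 8) DSA (AA * BB * DSA) cA3 false
      (fe y (Dh DSA cA3 y r))) :=
  rep_nz (c := cA3) (p := 8) DSA_pos RA3_ok SA0_ok rfl RA3_len hf h0 h1 h2 h3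

theorem cdA3 {y : Fin 4 → ℝ} (hy : ∑ i, y i = 4) {r : ℝ} {x : Fin 3 → ℝ} (hf : Face y r x)
    (h0 : ((13 : ℤ) : ℝ) / 16 ≤ r) (h1 : r ≤ ((14 : ℤ) : ℝ) / 16) (h2 : (1 / 3 : ℝ) ≤ xQ x)
    (h3 : xQ x ≤ (9 / 16 : ℝ)) : CellData DSA (· ≤ ·) xA3 y :=
  cellData_up (X := xA3) (DS := DSA) DSA_pos oA3_ok hy hf h0 h1 (h3.trans (by norm_num [xA3]))
    (rpA3 hf h0 h1 h2 h3)

theorem rpA4 {y : Fin 4 → ℝ} {r : ℝ} {x : Fin 3 → ℝ} (hf : Face y r x)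
    (h0 : ((14 : ℤ) : ℝ) / 16 ≤ r) (h1 : r ≤ ((15 : ℤ) : ℝ) / 16) (h2 : (1 / 3 : ℝ) ≤ xQ x)
    (h3 : xQ x ≤ (9 / 16 : ℝ)) : Nonempty (Rep (15 * 8) DSA (AA * BB * DSA) cA4 false
      (fe y (Dh DSA cA4 y r))) :=
  rep_nz (c := cA4) (p := 8) DSA_pos RA4_ok SA0_ok rfl RA4_len hf h0 h1 h2 h3

theorem cdA4 {y : Fin 4 → ℝ} (hy : ∑ i, y i = 4) {r : ℝ} {x : Fin 3 → ℝ} (hf : Face y r x)
    (h0 : ((14 : ℤ) : ℝ) / 16 ≤ r) (h1 : r ≤ ((15 : ℤ) : ℝ) / 16) (h2 : (1 / 3 : ℝ) ≤ xQ x)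
    (h3 : xQ x ≤ (9 / 16 : ℝ)) : CellData DSA (· ≤ ·) xA4 y :=
  cellData_up (X := xA4) (DS := DSA) DSA_pos oA4_ok hy hf h0 h1 (h3.trans (by norm_num [xA4]))
    (rpA4 hf h0 h1 h2 h3)

theorem rpA5 {y : Fin 4 → ℝ} {r : ℝ} {x : Fin 3 → ℝ} (hf : Face y r x)
    (h0 : ((15 : ℤ) : ℝ) / 16 ≤ r) (h1 : r ≤ ((16 : ℤ) : ℝ) / 16) (h2 : (1 / 3 : ℝ) ≤ xQ x)
    (h3 : xQ x ≤ (9 / 16 : ℝ)) : Nonempty (Rep (15 * 8) DSA (AA * BB * DSA) cA5 false
      (fe y (Dh DSA cA5 y r))) :=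
  rep_nz (c := cA5) (p := 8) DSA_pos RA5_ok SA0_ok rfl RA5_len hf h0 h1 h2 h3

theorem cdA5 {y : Fin 4 → ℝ} (hy : ∑ i, y i = 4) {r : ℝ} {x : Fin 3 → ℝ} (hf : Face y r x)
    (h0 : ((15 : ℤ) : ℝ) / 16 ≤ r) (h1 : r ≤ ((16 : ℤ) : ℝ) / 16) (h2 : (1 / 3 : ℝ) ≤ xQ x)
    (h3 : xQ x ≤ (9 / 16 : ℝ)) : CellData DSA (· ≤ ·) xA5 y :=
  cellData_up (X := xA5) (DS := DSA) DSA_pos oA5_ok hy hf h0 h1 (h3.trans (by norm_num [xA5]))
    (rpA5 hf h0 h1 h2 h3)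

theorem rpA6 {y : Fin 4 → ℝ} {r : ℝ} {x : Fin 3 → ℝ} (hf : Face y r x)
    (h0 : ((0 : ℤ) : ℝ) / 16 ≤ r) (h1 : r ≤ ((5 : ℤ) : ℝ) / 16) (h2 : (9 / 16 : ℝ) ≤ xQ x)
    (h3 : xQ x ≤ (13 / 16 : ℝ)) : Nonempty (Rep (15 * 6) DSA (AA * BB * DSA) cA6 true
      (fe y (Dh DSA cA6 y r))) :=
  rep_z (c := cA6) (p := 6) (S := SA1) DSA_pos RA0_ok SA1_ok rfl rfl RA0_len (nth_allZ rfl) rfl
    hf h0 h1 h2 h3

theorem cdA6 {y : Fin 4 → ℝ} (hy : ∑ i, y i = 4) {r : ℝ} {x : Fin 3 → ℝ} (hf : Face y r x)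
    (h0 : ((0 : ℤ) : ℝ) / 16 ≤ r) (h1 : r ≤ ((5 : ℤ) : ℝ) / 16) (h2 : (9 / 16 : ℝ) ≤ xQ x)
    (h3 : xQ x ≤ (13 / 16 : ℝ)) : CellData DSA (· ≤ ·) xA6 y :=
  cellData_up (X := xA6) (DS := DSA) DSA_pos oA6_ok hy hf h0 h1 (h3.trans (by norm_num [xA6]))
    (rpA6 hf h0 h1 h2 h3)

theorem rpA7 {y : Fin 4 → ℝ} {r : ℝ} {x : Fin 3 → ℝ} (hf : Face y r x)
    (h0 : ((5 : ℤ) : ℝ) / 16 ≤ r) (h1 : r ≤ ((10 : ℤ) : ℝ) / 16) (h2 : (9 / 16 : ℝ) ≤ xQ x)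
    (h3 : xQ x ≤ (13 / 16 : ℝ)) : Nonempty (Rep (15 * 8) DSA (AA * BB * DSA) cA7 false
      (fe y (Dh DSA cA7 y r))) :=
  rep_nz (c := cA7) (p := 8) DSA_pos RA1_ok SA1_ok rfl RA1_len hf h0 h1 h2 h3

theorem cdA7 {y : Fin 4 → ℝ} (hy : ∑ i, y i = 4) {r : ℝ} {x : Fin 3 → ℝ} (hf : Face y r x)
    (h0 : ((5 : ℤ) : ℝ) / 16 ≤ r) (h1 : r ≤ ((10 : ℤ) : ℝ) / 16) (h2 : (9 / 16 : ℝ) ≤ xQ x)
    (h3 : xQ x ≤ (13 / 16 : ℝ)) : CellData DSA (· ≤ ·) xA7 y :=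
  cellData_up (X := xA7) (DS := DSA) DSA_pos oA7_ok hy hf h0 h1 (h3.trans (by norm_num [xA7]))
    (rpA7 hf h0 h1 h2 h3)

theorem rpA8 {y : Fin 4 → ℝ} {r : ℝ} {x : Fin 3 → ℝ} (hf : Face y r x)
    (h0 : ((10 : ℤ) : ℝ) / 16 ≤ r) (h1 : r ≤ ((13 : ℤ) : ℝ) / 16) (h2 : (9 / 16 : ℝ) ≤ xQ x)
    (h3 : xQ x ≤ (13 / 16 : ℝ)) : Nonempty (Rep (15 * 8) DSA (AA * BB * DSA) cA8 false
      (fe y (Dh DSA cA8 y r))) :=
  rep_nz (c := cA8) (p := 8) DSA_pos RA2_ok SA1_ok rfl RA2_len hf h0 h1 h2 h3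

theorem cdA8 {y : Fin 4 → ℝ} (hy : ∑ i, y i = 4) {r : ℝ} {x : Fin 3 → ℝ} (hf : Face y r x)
    (h0 : ((10 : ℤ) : ℝ) / 16 ≤ r) (h1 : r ≤ ((13 : ℤ) : ℝ) / 16) (h2 : (9 / 16 : ℝ) ≤ xQ x)
    (h3 : xQ x ≤ (13 / 16 : ℝ)) : CellData DSA (· ≤ ·) xA8 y :=
  cellData_up (X := xA8) (DS := DSA) DSA_pos oA8_ok hy hf h0 h1 (h3.trans (by norm_num [xA8]))
    (rpA8 hf h0 h1 h2 h3)

theorem rpA9 {y : Fin 4 → ℝ} {r : ℝ} {x : Fin 3 → ℝ} (hf : Face y r x)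
    (h0 : ((13 : ℤ) : ℝ) / 16 ≤ r) (h1 : r ≤ ((14 : ℤ) : ℝ) / 16) (h2 : (9 / 16 : ℝ) ≤ xQ x)
    (h3 : xQ x ≤ (13 / 16 : ℝ)) : Nonempty (Rep (15 * 8) DSA (AA * BB * DSA) cA9 false
      (fe y (Dh DSA cA9 y r))) :=
  rep_nz (c := cA9) (p := 8) DSA_pos RA3_ok SA1_ok rfl RA3_len hf h0 h1 h2 h3

theorem cdA9 {y : Fin 4 → ℝ} (hy : ∑ i, y i = 4) {r : ℝ} {x : Fin 3 → ℝ} (hf : Face y r x)
    (h0 : ((13 : ℤ) : ℝ) / 16 ≤ r) (h1 : r ≤ ((14 : ℤ) : ℝ) / 16) (h2 : (9 / 16 : ℝ) ≤ xQ x)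
    (h3 : xQ x ≤ (13 / 16 : ℝ)) : CellData DSA (· ≤ ·) xA9 y :=
  cellData_up (X := xA9) (DS := DSA) DSA_pos oA9_ok hy hf h0 h1 (h3.trans (by norm_num [xA9]))
    (rpA9 hf h0 h1 h2 h3)

theorem rpA10 {y : Fin 4 → ℝ} {r : ℝ} {x : Fin 3 → ℝ} (hf : Face y r x)
    (h0 : ((14 : ℤ) : ℝ) / 16 ≤ r) (h1 : r ≤ ((15 : ℤ) : ℝ) / 16) (h2 : (9 / 16 : ℝ) ≤ xQ x)
    (h3 : xQ x ≤ (13 / 16 : ℝ)) : Nonempty (Rep (15 * 8) DSA (AA * BB * DSA) cA10 false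
      (fe y (Dh DSA cA10 y r))) :=
  rep_nz (c := cA10) (p := 8) DSA_pos RA4_ok SA1_ok rfl RA4_len hf h0 h1 h2 h3

theorem cdA10 {y : Fin 4 → ℝ} (hy : ∑ i, y i = 4) {r : ℝ} {x : Fin 3 → ℝ} (hf : Face y r x)
    (h0 : ((14 : ℤ) : ℝ) / 16 ≤ r) (h1 : r ≤ ((15 : ℤ) : ℝ) / 16) (h2 : (9 / 16 : ℝ) ≤ xQ x)
    (h3 : xQ x ≤ (13 / 16 : ℝ)) : CellData DSA (· ≤ ·) xA10 y :=
  cellData_up (X := xA10) (DS := DSA) DSA_pos oA10_ok hy hf h0 h1 (h3.trans (by norm_num [xA10]))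
    (rpA10 hf h0 h1 h2 h3)

theorem rpA11 {y : Fin 4 → ℝ} {r : ℝ} {x : Fin 3 → ℝ} (hf : Face y r x)
    (h0 : ((15 : ℤ) : ℝ) / 16 ≤ r) (h1 : r ≤ ((16 : ℤ) : ℝ) / 16) (h2 : (9 / 16 : ℝ) ≤ xQ x)
    (h3 : xQ x ≤ (13 / 16 : ℝ)) : Nonempty (Rep (15 * 8) DSA (AA * BB * DSA) cA11 false
      (fe y (Dh DSA cA11 y r))) :=
  rep_nz (c := cA11) (p := 8) DSA_pos RA5_ok SA1_ok rfl RA5_len hf h0 h1 h2 h3

theorem cdA11 {y : Fin 4 → ℝ} (hy : ∑ i, y i = 4) {r : ℝ} {x : Fin 3 → ℝ} (hf : Face y r x)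
    (h0 : ((15 : ℤ) : ℝ) / 16 ≤ r) (h1 : r ≤ ((16 : ℤ) : ℝ) / 16) (h2 : (9 / 16 : ℝ) ≤ xQ x)
    (h3 : xQ x ≤ (13 / 16 : ℝ)) : CellData DSA (· ≤ ·) xA11 y :=
  cellData_up (X := xA11) (DS := DSA) DSA_pos oA11_ok hy hf h0 h1 (h3.trans (by norm_num [xA11]))
    (rpA11 hf h0 h1 h2 h3)

theorem rpA12 {y : Fin 4 → ℝ} {r : ℝ} {x : Fin 3 → ℝ} (hf : Face y r x)
    (h0 : ((0 : ℤ) : ℝ) / 16 ≤ r) (h1 : r ≤ ((5 : ℤ) : ℝ) / 16) (h2 : (13 / 16 : ℝ) ≤ xQ x)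
    (h3 : xQ x ≤ (1 : ℝ)) : Nonempty (Rep (15 * 6) DSA (AA * BB * DSA) cA12 true
      (fe y (Dh DSA cA12 y r))) :=
  rep_z (c := cA12) (p := 6) (S := SA2) DSA_pos RA0_ok SA2_ok rfl rfl RA0_len (nth_allZ rfl) rfl
    hf h0 h1 h2 h3

theorem cdA12 {y : Fin 4 → ℝ} (hy : ∑ i, y i = 4) {r : ℝ} {x : Fin 3 → ℝ} (hf : Face y r x)
    (h0 : ((0 : ℤ) : ℝ) / 16 ≤ r) (h1 : r ≤ ((5 : ℤ) : ℝ) / 16) (h2 : (13 / 16 : ℝ) ≤ xQ x)
    (h3 : xQ x ≤ (1 : ℝ)) : CellData DSA (· ≤ ·) xA12 y :=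
  cellData_up (X := xA12) (DS := DSA) DSA_pos oA12_ok hy hf h0 h1 (h3.trans (by norm_num [xA12]))
    (rpA12 hf h0 h1 h2 h3)

theorem rpA13 {y : Fin 4 → ℝ} {r : ℝ} {x : Fin 3 → ℝ} (hf : Face y r x)
    (h0 : ((5 : ℤ) : ℝ) / 16 ≤ r) (h1 : r ≤ ((10 : ℤ) : ℝ) / 16) (h2 : (13 / 16 : ℝ) ≤ xQ x)
    (h3 : xQ x ≤ (1 : ℝ)) : Nonempty (Rep (15 * 8) DSA (AA * BB * DSA) cA13 false
      (fe y (Dh DSA cA13 y r))) :=
  rep_nz (c := cA13) (p := 8) DSA_pos RA1_ok SA2_ok rfl RA1_len hf h0 h1 h2 h3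

theorem cdA13 {y : Fin 4 → ℝ} (hy : ∑ i, y i = 4) {r : ℝ} {x : Fin 3 → ℝ} (hf : Face y r x)
    (h0 : ((5 : ℤ) : ℝ) / 16 ≤ r) (h1 : r ≤ ((10 : ℤ) : ℝ) / 16) (h2 : (13 / 16 : ℝ) ≤ xQ x)
    (h3 : xQ x ≤ (1 : ℝ)) : CellData DSA (· ≤ ·) xA13 y :=
  cellData_up (X := xA13) (DS := DSA) DSA_pos oA13_ok hy hf h0 h1 (h3.trans (by norm_num [xA13]))
    (rpA13 hf h0 h1 h2 h3)

theorem rpA14 {y : Fin 4 → ℝ} {r : ℝ} {x : Fin 3 → ℝ} (hf : Face y r x)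
    (h0 : ((10 : ℤ) : ℝ) / 16 ≤ r) (h1 : r ≤ ((13 : ℤ) : ℝ) / 16) (h2 : (13 / 16 : ℝ) ≤ xQ x)
    (h3 : xQ x ≤ (1 : ℝ)) : Nonempty (Rep (15 * 8) DSA (AA * BB * DSA) cA14 false
      (fe y (Dh DSA cA14 y r))) :=
  rep_nz (c := cA14) (p := 8) DSA_pos RA2_ok SA2_ok rfl RA2_len hf h0 h1 h2 h3

theorem cdA14 {y : Fin 4 → ℝ} (hy : ∑ i, y i = 4) {r : ℝ} {x : Fin 3 → ℝ} (hf : Face y r x)
    (h0 : ((10 : ℤ) : ℝ) / 16 ≤ r) (h1 : r ≤ ((13 : ℤ) : ℝ) / 16) (h2 : (13 / 16 : ℝ) ≤ xQ x)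
    (h3 : xQ x ≤ (1 : ℝ)) : CellData DSA (· ≤ ·) xA14 y :=
  cellData_up (X := xA14) (DS := DSA) DSA_pos oA14_ok hy hf h0 h1 (h3.trans (by norm_num [xA14]))
    (rpA14 hf h0 h1 h2 h3)

theorem rpA15 {y : Fin 4 → ℝ} {r : ℝ} {x : Fin 3 → ℝ} (hf : Face y r x)
    (h0 : ((13 : ℤ) : ℝ) / 16 ≤ r) (h1 : r ≤ ((14 : ℤ) : ℝ) / 16) (h2 : (13 / 16 : ℝ) ≤ xQ x)
    (h3 : xQ x ≤ (1 : ℝ)) : Nonempty (Rep (15 * 8) DSA (AA * BB * DSA) cA15 false
      (fe y (Dh DSA cA15 y r))) :=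
  rep_nz (c := cA15) (p := 8) DSA_pos RA3_ok SA2_ok rfl RA3_len hf h0 h1 h2 h3

theorem cdA15 {y : Fin 4 → ℝ} (hy : ∑ i, y i = 4) {r : ℝ} {x : Fin 3 → ℝ} (hf : Face y r x)
    (h0 : ((13 : ℤ) : ℝ) / 16 ≤ r) (h1 : r ≤ ((14 : ℤ) : ℝ) / 16) (h2 : (13 / 16 : ℝ) ≤ xQ x)
    (h3 : xQ x ≤ (1 : ℝ)) : CellData DSA (· ≤ ·) xA15 y :=
  cellData_up (X := xA15) (DS := DSA) DSA_pos oA15_ok hy hf h0 h1 (h3.trans (by norm_num [xA15]))
    (rpA15 hf h0 h1 h2 h3)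

theorem rpA16 {y : Fin 4 → ℝ} {r : ℝ} {x : Fin 3 → ℝ} (hf : Face y r x)
    (h0 : ((14 : ℤ) : ℝ) / 16 ≤ r) (h1 : r ≤ ((15 : ℤ) : ℝ) / 16) (h2 : (13 / 16 : ℝ) ≤ xQ x)
    (h3 : xQ x ≤ (1 : ℝ)) : Nonempty (Rep (15 * 8) DSA (AA * BB * DSA) cA16 false
      (fe y (Dh DSA cA16 y r))) :=
  rep_nz (c := cA16) (p := 8) DSA_pos RA4_ok SA2_ok rfl RA4_len hf h0 h1 h2 h3

theorem cdA16 {y : Fin 4 → ℝ} (hy : ∑ i, y i = 4) {r : ℝ} {x : Fin 3 → ℝ} (hf : Face y r x)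
    (h0 : ((14 : ℤ) : ℝ) / 16 ≤ r) (h1 : r ≤ ((15 : ℤ) : ℝ) / 16) (h2 : (13 / 16 : ℝ) ≤ xQ x)
    (h3 : xQ x ≤ (1 : ℝ)) : CellData DSA (· ≤ ·) xA16 y :=
  cellData_up (X := xA16) (DS := DSA) DSA_pos oA16_ok hy hf h0 h1 (h3.trans (by norm_num [xA16]))
    (rpA16 hf h0 h1 h2 h3)

theorem rpA17 {y : Fin 4 → ℝ} {r : ℝ} {x : Fin 3 → ℝ} (hf : Face y r x)
    (h0 : ((15 : ℤ) : ℝ) / 16 ≤ r) (h1 : r ≤ ((16 : ℤ) : ℝ) / 16) (h2 : (13 / 16 : ℝ) ≤ xQ x)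
    (h3 : xQ x ≤ (1 : ℝ)) : Nonempty (Rep (15 * 8) DSA (AA * BB * DSA) cA17 false
      (fe y (Dh DSA cA17 y r))) :=
  rep_nz (c := cA17) (p := 8) DSA_pos RA5_ok SA2_ok rfl RA5_len hf h0 h1 h2 h3

theorem cdA17 {y : Fin 4 → ℝ} (hy : ∑ i, y i = 4) {r : ℝ} {x : Fin 3 → ℝ} (hf : Face y r x)
    (h0 : ((15 : ℤ) : ℝ) / 16 ≤ r) (h1 : r ≤ ((16 : ℤ) : ℝ) / 16) (h2 : (13 / 16 : ℝ) ≤ xQ x)
    (h3 : xQ x ≤ (1 : ℝ)) : CellData DSA (· ≤ ·) xA17 y :=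
  cellData_up (X := xA17) (DS := DSA) DSA_pos oA17_ok hy hf h0 h1 (h3.trans (by norm_num [xA17]))
    (rpA17 hf h0 h1 h2 h3)

theorem rpA18 {y : Fin 4 → ℝ} {r : ℝ} {x : Fin 3 → ℝ} (hf : Face y r x)
    (h0 : ((0 : ℤ) : ℝ) / 16 ≤ r) (h1 : r ≤ ((5 : ℤ) : ℝ) / 16) (h2 : (1 : ℝ) ≤ xQ x)
    (h3 : xQ x ≤ (5 / 4 : ℝ)) : Nonempty (Rep (15 * 6) DSA (AA * BB * DSA) cA18 true
      (fe y (Dh DSA cA18 y r))) :=
  rep_z (c := cA18) (p := 6) (S := SA3) DSA_pos RA0_ok SA3_ok rfl rfl RA0_len (nth_allZ rfl) rfl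
    hf h0 h1 h2 h3

theorem cdA18 {y : Fin 4 → ℝ} (hy : ∑ i, y i = 4) {r : ℝ} {x : Fin 3 → ℝ} (hf : Face y r x)
    (h0 : ((0 : ℤ) : ℝ) / 16 ≤ r) (h1 : r ≤ ((5 : ℤ) : ℝ) / 16) (h2 : (1 : ℝ) ≤ xQ x)
    (h3 : xQ x ≤ (5 / 4 : ℝ)) : CellData DSA (· ≤ ·) xA18 y :=
  cellData_up (X := xA18) (DS := DSA) DSA_pos oA18_ok hy hf h0 h1 (h3.trans (by norm_num [xA18]))
    (rpA18 hf h0 h1 h2 h3)

theorem rpA19 {y : Fin 4 → ℝ} {r : ℝ} {x : Fin 3 → ℝ} (hf : Face y r x)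
    (h0 : ((5 : ℤ) : ℝ) / 16 ≤ r) (h1 : r ≤ ((10 : ℤ) : ℝ) / 16) (h2 : (1 : ℝ) ≤ xQ x)
    (h3 : xQ x ≤ (5 / 4 : ℝ)) : Nonempty (Rep (15 * 8) DSA (AA * BB * DSA) cA19 false
      (fe y (Dh DSA cA19 y r))) :=
  rep_nz (c := cA19) (p := 8) DSA_pos RA1_ok SA3_ok rfl RA1_len hf h0 h1 h2 h3

theorem cdA19 {y : Fin 4 → ℝ} (hy : ∑ i, y i = 4) {r : ℝ} {x : Fin 3 → ℝ} (hf : Face y r x)
    (h0 : ((5 : ℤ) : ℝ) / 16 ≤ r) (h1 : r ≤ ((10 : ℤ) : ℝ) / 16) (h2 : (1 : ℝ) ≤ xQ x)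
    (h3 : xQ x ≤ (5 / 4 : ℝ)) : CellData DSA (· ≤ ·) xA19 y :=
  cellData_up (X := xA19) (DS := DSA) DSA_pos oA19_ok hy hf h0 h1 (h3.trans (by norm_num [xA19]))
    (rpA19 hf h0 h1 h2 h3)

theorem rpA20 {y : Fin 4 → ℝ} {r : ℝ} {x : Fin 3 → ℝ} (hf : Face y r x)
    (h0 : ((10 : ℤ) : ℝ) / 16 ≤ r) (h1 : r ≤ ((13 : ℤ) : ℝ) / 16) (h2 : (1 : ℝ) ≤ xQ x)
    (h3 : xQ x ≤ (5 / 4 : ℝ)) : Nonempty (Rep (15 * 8) DSA (AA * BB * DSA) cA20 false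
      (fe y (Dh DSA cA20 y r))) :=
  rep_nz (c := cA20) (p := 8) DSA_pos RA2_ok SA3_ok rfl RA2_len hf h0 h1 h2 h3

theorem cdA20 {y : Fin 4 → ℝ} (hy : ∑ i, y i = 4) {r : ℝ} {x : Fin 3 → ℝ} (hf : Face y r x)
    (h0 : ((10 : ℤ) : ℝ) / 16 ≤ r) (h1 : r ≤ ((13 : ℤ) : ℝ) / 16) (h2 : (1 : ℝ) ≤ xQ x)
    (h3 : xQ x ≤ (5 / 4 : ℝ)) : CellData DSA (· ≤ ·) xA20 y :=
  cellData_up (X := xA20) (DS := DSA) DSA_pos oA20_ok hy hf h0 h1 (h3.trans (by norm_num [xA20]))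
    (rpA20 hf h0 h1 h2 h3)

theorem rpA21 {y : Fin 4 → ℝ} {r : ℝ} {x : Fin 3 → ℝ} (hf : Face y r x)
    (h0 : ((13 : ℤ) : ℝ) / 16 ≤ r) (h1 : r ≤ ((14 : ℤ) : ℝ) / 16) (h2 : (1 : ℝ) ≤ xQ x)
    (h3 : xQ x ≤ (5 / 4 : ℝ)) : Nonempty (Rep (15 * 8) DSA (AA * BB * DSA) cA21 false
      (fe y (Dh DSA cA21 y r))) :=
  rep_nz (c := cA21) (p := 8) DSA_pos RA3_ok SA3_ok rfl RA3_len hf h0 h1 h2 h3

theorem cdA21 {y : Fin 4 → ℝ} (hy : ∑ i, y i = 4) {r : ℝ} {x : Fin 3 → ℝ} (hf : Face y r x)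
    (h0 : ((13 : ℤ) : ℝ) / 16 ≤ r) (h1 : r ≤ ((14 : ℤ) : ℝ) / 16) (h2 : (1 : ℝ) ≤ xQ x)
    (h3 : xQ x ≤ (5 / 4 : ℝ)) : CellData DSA (· ≤ ·) xA21 y :=
  cellData_up (X := xA21) (DS := DSA) DSA_pos oA21_ok hy hf h0 h1 (h3.trans (by norm_num [xA21]))
    (rpA21 hf h0 h1 h2 h3)

theorem rpA22 {y : Fin 4 → ℝ} {r : ℝ} {x : Fin 3 → ℝ} (hf : Face y r x)
    (h0 : ((14 : ℤ) : ℝ) / 16 ≤ r) (h1 : r ≤ ((15 : ℤ) : ℝ) / 16) (h2 : (1 : ℝ) ≤ xQ x)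
    (h3 : xQ x ≤ (5 / 4 : ℝ)) : Nonempty (Rep (15 * 8) DSA (AA * BB * DSA) cA22 false
      (fe y (Dh DSA cA22 y r))) :=
  rep_nz (c := cA22) (p := 8) DSA_pos RA4_ok SA3_ok rfl RA4_len hf h0 h1 h2 h3

theorem cdA22 {y : Fin 4 → ℝ} (hy : ∑ i, y i = 4) {r : ℝ} {x : Fin 3 → ℝ} (hf : Face y r x)
    (h0 : ((14 : ℤ) : ℝ) / 16 ≤ r) (h1 : r ≤ ((15 : ℤ) : ℝ) / 16) (h2 : (1 : ℝ) ≤ xQ x)
    (h3 : xQ x ≤ (5 / 4 : ℝ)) : CellData DSA (· ≤ ·) xA22 y :=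
  cellData_up (X := xA22) (DS := DSA) DSA_pos oA22_ok hy hf h0 h1 (h3.trans (by norm_num [xA22]))
    (rpA22 hf h0 h1 h2 h3)

theorem rpA23 {y : Fin 4 → ℝ} {r : ℝ} {x : Fin 3 → ℝ} (hf : Face y r x)
    (h0 : ((15 : ℤ) : ℝ) / 16 ≤ r) (h1 : r ≤ ((16 : ℤ) : ℝ) / 16) (h2 : (1 : ℝ) ≤ xQ x)
    (h3 : xQ x ≤ (5 / 4 : ℝ)) : Nonempty (Rep (15 * 8) DSA (AA * BB * DSA) cA23 false
      (fe y (Dh DSA cA23 y r))) :=
  rep_nz (c := cA23) (p := 8) DSA_pos RA5_ok SA3_ok rfl RA5_len hf h0 h1 h2 h3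

theorem cdA23 {y : Fin 4 → ℝ} (hy : ∑ i, y i = 4) {r : ℝ} {x : Fin 3 → ℝ} (hf : Face y r x)
    (h0 : ((15 : ℤ) : ℝ) / 16 ≤ r) (h1 : r ≤ ((16 : ℤ) : ℝ) / 16) (h2 : (1 : ℝ) ≤ xQ x)
    (h3 : xQ x ≤ (5 / 4 : ℝ)) : CellData DSA (· ≤ ·) xA23 y :=
  cellData_up (X := xA23) (DS := DSA) DSA_pos oA23_ok hy hf h0 h1 (h3.trans (by norm_num [xA23]))
    (rpA23 hf h0 h1 h2 h3)

theorem rpA24 {y : Fin 4 → ℝ} {r : ℝ} {x : Fin 3 → ℝ} (hf : Face y r x)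
    (h0 : ((0 : ℤ) : ℝ) / 16 ≤ r) (h1 : r ≤ ((5 : ℤ) : ℝ) / 16) (h2 : (5 / 4 : ℝ) ≤ xQ x)
    (h3 : xQ x ≤ (13 / 8 : ℝ)) : Nonempty (Rep (15 * 6) DSA (AA * BB * DSA) cA24 true
      (fe y (Dh DSA cA24 y r))) :=
  rep_z (c := cA24) (p := 6) (S := SA4) DSA_pos RA0_ok SA4_ok rfl rfl RA0_len (nth_allZ rfl) rfl
    hf h0 h1 h2 h3

theorem cdA24 {y : Fin 4 → ℝ} (hy : ∑ i, y i = 4) {r : ℝ} {x : Fin 3 → ℝ} (hf : Face y r x)
    (h0 : ((0 : ℤ) : ℝ) / 16 ≤ r) (h1 : r ≤ ((5 : ℤ) : ℝ) / 16) (h2 : (5 / 4 : ℝ) ≤ xQ x)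
    (h3 : xQ x ≤ (13 / 8 : ℝ)) : CellData DSA (· ≤ ·) xA24 y :=
  cellData_up (X := xA24) (DS := DSA) DSA_pos oA24_ok hy hf h0 h1 (h3.trans (by norm_num [xA24]))
    (rpA24 hf h0 h1 h2 h3)

theorem rpA25 {y : Fin 4 → ℝ} {r : ℝ} {x : Fin 3 → ℝ} (hf : Face y r x)
    (h0 : ((5 : ℤ) : ℝ) / 16 ≤ r) (h1 : r ≤ ((10 : ℤ) : ℝ) / 16) (h2 : (5 / 4 : ℝ) ≤ xQ x)
    (h3 : xQ x ≤ (13 / 8 : ℝ)) : Nonempty (Rep (15 * 8) DSA (AA * BB * DSA) cA25 false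
      (fe y (Dh DSA cA25 y r))) :=
  rep_nz (c := cA25) (p := 8) DSA_pos RA1_ok SA4_ok rfl RA1_len hf h0 h1 h2 h3

theorem cdA25 {y : Fin 4 → ℝ} (hy : ∑ i, y i = 4) {r : ℝ} {x : Fin 3 → ℝ} (hf : Face y r x)
    (h0 : ((5 : ℤ) : ℝ) / 16 ≤ r) (h1 : r ≤ ((10 : ℤ) : ℝ) / 16) (h2 : (5 / 4 : ℝ) ≤ xQ x)
    (h3 : xQ x ≤ (13 / 8 : ℝ)) : CellData DSA (· ≤ ·) xA25 y :=
  cellData_up (X := xA25) (DS := DSA) DSA_pos oA25_ok hy hf h0 h1 (h3.trans (by norm_num [xA25]))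
    (rpA25 hf h0 h1 h2 h3)

theorem rpA26 {y : Fin 4 → ℝ} {r : ℝ} {x : Fin 3 → ℝ} (hf : Face y r x)
    (h0 : ((10 : ℤ) : ℝ) / 16 ≤ r) (h1 : r ≤ ((13 : ℤ) : ℝ) / 16) (h2 : (5 / 4 : ℝ) ≤ xQ x)
    (h3 : xQ x ≤ (13 / 8 : ℝ)) : Nonempty (Rep (15 * 8) DSA (AA * BB * DSA) cA26 false
      (fe y (Dh DSA cA26 y r))) :=
  rep_nz (c := cA26) (p := 8) DSA_pos RA2_ok SA4_ok rfl RA2_len hf h0 h1 h2 h3

theorem cdA26 {y : Fin 4 → ℝ} (hy : ∑ i, y i = 4) {r : ℝ} {x : Fin 3 → ℝ} (hf : Face y r x)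
    (h0 : ((10 : ℤ) : ℝ) / 16 ≤ r) (h1 : r ≤ ((13 : ℤ) : ℝ) / 16) (h2 : (5 / 4 : ℝ) ≤ xQ x)
    (h3 : xQ x ≤ (13 / 8 : ℝ)) : CellData DSA (· ≤ ·) xA26 y :=
  cellData_up (X := xA26) (DS := DSA) DSA_pos oA26_ok hy hf h0 h1 (h3.trans (by norm_num [xA26]))
    (rpA26 hf h0 h1 h2 h3)

theorem rpA27 {y : Fin 4 → ℝ} {r : ℝ} {x : Fin 3 → ℝ} (hf : Face y r x)
    (h0 : ((13 : ℤ) : ℝ) / 16 ≤ r) (h1 : r ≤ ((14 : ℤ) : ℝ) / 16) (h2 : (5 / 4 : ℝ) ≤ xQ x)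
    (h3 : xQ x ≤ (13 / 8 : ℝ)) : Nonempty (Rep (15 * 8) DSA (AA * BB * DSA) cA27 false
      (fe y (Dh DSA cA27 y r))) :=
  rep_nz (c := cA27) (p := 8) DSA_pos RA3_ok SA4_ok rfl RA3_len hf h0 h1 h2 h3

theorem cdA27 {y : Fin 4 → ℝ} (hy : ∑ i, y i = 4) {r : ℝ} {x : Fin 3 → ℝ} (hf : Face y r x)
    (h0 : ((13 : ℤ) : ℝ) / 16 ≤ r) (h1 : r ≤ ((14 : ℤ) : ℝ) / 16) (h2 : (5 / 4 : ℝ) ≤ xQ x)
    (h3 : xQ x ≤ (13 / 8 : ℝ)) : CellData DSA (· ≤ ·) xA27 y :=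
  cellData_up (X := xA27) (DS := DSA) DSA_pos oA27_ok hy hf h0 h1 (h3.trans (by norm_num [xA27]))
    (rpA27 hf h0 h1 h2 h3)

theorem rpA28 {y : Fin 4 → ℝ} {r : ℝ} {x : Fin 3 → ℝ} (hf : Face y r x)
    (h0 : ((14 : ℤ) : ℝ) / 16 ≤ r) (h1 : r ≤ ((15 : ℤ) : ℝ) / 16) (h2 : (5 / 4 : ℝ) ≤ xQ x)
    (h3 : xQ x ≤ (13 / 8 : ℝ)) : Nonempty (Rep (15 * 8) DSA (AA * BB * DSA) cA28 false
      (fe y (Dh DSA cA28 y r))) :=
  rep_nz (c := cA28) (p := 8) DSA_pos RA4_ok SA4_ok rfl RA4_len hf h0 h1 h2 h3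

theorem cdA28 {y : Fin 4 → ℝ} (hy : ∑ i, y i = 4) {r : ℝ} {x : Fin 3 → ℝ} (hf : Face y r x)
    (h0 : ((14 : ℤ) : ℝ) / 16 ≤ r) (h1 : r ≤ ((15 : ℤ) : ℝ) / 16) (h2 : (5 / 4 : ℝ) ≤ xQ x)
    (h3 : xQ x ≤ (13 / 8 : ℝ)) : CellData DSA (· ≤ ·) xA28 y :=
  cellData_up (X := xA28) (DS := DSA) DSA_pos oA28_ok hy hf h0 h1 (h3.trans (by norm_num [xA28]))
    (rpA28 hf h0 h1 h2 h3)

theorem rpA29 {y : Fin 4 → ℝ} {r : ℝ} {x : Fin 3 → ℝ} (hf : Face y r x)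
    (h0 : ((15 : ℤ) : ℝ) / 16 ≤ r) (h1 : r ≤ ((16 : ℤ) : ℝ) / 16) (h2 : (5 / 4 : ℝ) ≤ xQ x)
    (h3 : xQ x ≤ (13 / 8 : ℝ)) : Nonempty (Rep (15 * 8) DSA (AA * BB * DSA) cA29 false
      (fe y (Dh DSA cA29 y r))) :=
  rep_nz (c := cA29) (p := 8) DSA_pos RA5_ok SA4_ok rfl RA5_len hf h0 h1 h2 h3

theorem cdA29 {y : Fin 4 → ℝ} (hy : ∑ i, y i = 4) {r : ℝ} {x : Fin 3 → ℝ} (hf : Face y r x)
    (h0 : ((15 : ℤ) : ℝ) / 16 ≤ r) (h1 : r ≤ ((16 : ℤ) : ℝ) / 16) (h2 : (5 / 4 : ℝ) ≤ xQ x)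
    (h3 : xQ x ≤ (13 / 8 : ℝ)) : CellData DSA (· ≤ ·) xA29 y :=
  cellData_up (X := xA29) (DS := DSA) DSA_pos oA29_ok hy hf h0 h1 (h3.trans (by norm_num [xA29]))
    (rpA29 hf h0 h1 h2 h3)

theorem rpA30 {y : Fin 4 → ℝ} {r : ℝ} {x : Fin 3 → ℝ} (hf : Face y r x)
    (h0 : ((0 : ℤ) : ℝ) / 16 ≤ r) (h1 : r ≤ ((5 : ℤ) : ℝ) / 16) (h2 : (13 / 8 : ℝ) ≤ xQ x)
    (h3 : xQ x ≤ (9 / 4 : ℝ)) : Nonempty (Rep (15 * 6) DSA (AA * BB * DSA) cA30 true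
      (fe y (Dh DSA cA30 y r))) :=
  rep_z (c := cA30) (p := 6) (S := SA5) DSA_pos RA0_ok SA5_ok rfl rfl RA0_len (nth_allZ rfl) rfl
    hf h0 h1 h2 h3

theorem cdA30 {y : Fin 4 → ℝ} (hy : ∑ i, y i = 4) {r : ℝ} {x : Fin 3 → ℝ} (hf : Face y r x)
    (h0 : ((0 : ℤ) : ℝ) / 16 ≤ r) (h1 : r ≤ ((5 : ℤ) : ℝ) / 16) (h2 : (13 / 8 : ℝ) ≤ xQ x)
    (h3 : xQ x ≤ (9 / 4 : ℝ)) : CellData DSA (· ≤ ·) xA30 y :=
  cellData_up (X := xA30) (DS := DSA) DSA_pos oA30_ok hy hf h0 h1 (h3.trans (by norm_num [xA30]))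
    (rpA30 hf h0 h1 h2 h3)

theorem rpA31 {y : Fin 4 → ℝ} {r : ℝ} {x : Fin 3 → ℝ} (hf : Face y r x)
    (h0 : ((5 : ℤ) : ℝ) / 16 ≤ r) (h1 : r ≤ ((10 : ℤ) : ℝ) / 16) (h2 : (13 / 8 : ℝ) ≤ xQ x)
    (h3 : xQ x ≤ (9 / 4 : ℝ)) : Nonempty (Rep (15 * 8) DSA (AA * BB * DSA) cA31 false
      (fe y (Dh DSA cA31 y r))) :=
  rep_nz (c := cA31) (p := 8) DSA_pos RA1_ok SA5_ok rfl RA1_len hf h0 h1 h2 h3

theorem cdA31 {y : Fin 4 → ℝ} (hy : ∑ i, y i = 4) {r : ℝ} {x : Fin 3 → ℝ} (hf : Face y r x)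
    (h0 : ((5 : ℤ) : ℝ) / 16 ≤ r) (h1 : r ≤ ((10 : ℤ) : ℝ) / 16) (h2 : (13 / 8 : ℝ) ≤ xQ x)
    (h3 : xQ x ≤ (9 / 4 : ℝ)) : CellData DSA (· ≤ ·) xA31 y :=
  cellData_up (X := xA31) (DS := DSA) DSA_pos oA31_ok hy hf h0 h1 (h3.trans (by norm_num [xA31]))
    (rpA31 hf h0 h1 h2 h3)

theorem rpA32 {y : Fin 4 → ℝ} {r : ℝ} {x : Fin 3 → ℝ} (hf : Face y r x)
    (h0 : ((10 : ℤ) : ℝ) / 16 ≤ r) (h1 : r ≤ ((13 : ℤ) : ℝ) / 16) (h2 : (13 / 8 : ℝ) ≤ xQ x)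
    (h3 : xQ x ≤ (9 / 4 : ℝ)) : Nonempty (Rep (15 * 8) DSA (AA * BB * DSA) cA32 false
      (fe y (Dh DSA cA32 y r))) :=
  rep_nz (c := cA32) (p := 8) DSA_pos RA2_ok SA5_ok rfl RA2_len hf h0 h1 h2 h3

theorem cdA32 {y : Fin 4 → ℝ} (hy : ∑ i, y i = 4) {r : ℝ} {x : Fin 3 → ℝ} (hf : Face y r x)
    (h0 : ((10 : ℤ) : ℝ) / 16 ≤ r) (h1 : r ≤ ((13 : ℤ) : ℝ) / 16) (h2 : (13 / 8 : ℝ) ≤ xQ x)
    (h3 : xQ x ≤ (9 / 4 : ℝ)) : CellData DSA (· ≤ ·) xA32 y :=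
  cellData_up (X := xA32) (DS := DSA) DSA_pos oA32_ok hy hf h0 h1 (h3.trans (by norm_num [xA32]))
    (rpA32 hf h0 h1 h2 h3)

theorem rpA33 {y : Fin 4 → ℝ} {r : ℝ} {x : Fin 3 → ℝ} (hf : Face y r x)
    (h0 : ((13 : ℤ) : ℝ) / 16 ≤ r) (h1 : r ≤ ((14 : ℤ) : ℝ) / 16) (h2 : (13 / 8 : ℝ) ≤ xQ x)
    (h3 : xQ x ≤ (9 / 4 : ℝ)) : Nonempty (Rep (15 * 8) DSA (AA * BB * DSA) cA33 false
      (fe y (Dh DSA cA33 y r))) :=
  rep_nz (c := cA33) (p := 8) DSA_pos RA3_ok SA5_ok rfl RA3_len hf h0 h1 h2 h3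

theorem cdA33 {y : Fin 4 → ℝ} (hy : ∑ i, y i = 4) {r : ℝ} {x : Fin 3 → ℝ} (hf : Face y r x)
    (h0 : ((13 : ℤ) : ℝ) / 16 ≤ r) (h1 : r ≤ ((14 : ℤ) : ℝ) / 16) (h2 : (13 / 8 : ℝ) ≤ xQ x)
    (h3 : xQ x ≤ (9 / 4 : ℝ)) : CellData DSA (· ≤ ·) xA33 y :=
  cellData_up (X := xA33) (DS := DSA) DSA_pos oA33_ok hy hf h0 h1 (h3.trans (by norm_num [xA33]))
    (rpA33 hf h0 h1 h2 h3)

theorem rpA34 {y : Fin 4 → ℝ} {r : ℝ} {x : Fin 3 → ℝ} (hf : Face y r x)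
    (h0 : ((14 : ℤ) : ℝ) / 16 ≤ r) (h1 : r ≤ ((15 : ℤ) : ℝ) / 16) (h2 : (13 / 8 : ℝ) ≤ xQ x)
    (h3 : xQ x ≤ (9 / 4 : ℝ)) : Nonempty (Rep (15 * 8) DSA (AA * BB * DSA) cA34 false
      (fe y (Dh DSA cA34 y r))) :=
  rep_nz (c := cA34) (p := 8) DSA_pos RA4_ok SA5_ok rfl RA4_len hf h0 h1 h2 h3

theorem cdA34 {y : Fin 4 → ℝ} (hy : ∑ i, y i = 4) {r : ℝ} {x : Fin 3 → ℝ} (hf : Face y r x)
    (h0 : ((14 : ℤ) : ℝ) / 16 ≤ r) (h1 : r ≤ ((15 : ℤ) : ℝ) / 16) (h2 : (13 / 8 : ℝ) ≤ xQ x)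
    (h3 : xQ x ≤ (9 / 4 : ℝ)) : CellData DSA (· ≤ ·) xA34 y :=
  cellData_up (X := xA34) (DS := DSA) DSA_pos oA34_ok hy hf h0 h1 (h3.trans (by norm_num [xA34]))
    (rpA34 hf h0 h1 h2 h3)

theorem rpA35 {y : Fin 4 → ℝ} {r : ℝ} {x : Fin 3 → ℝ} (hf : Face y r x)
    (h0 : ((15 : ℤ) : ℝ) / 16 ≤ r) (h1 : r ≤ ((16 : ℤ) : ℝ) / 16) (h2 : (13 / 8 : ℝ) ≤ xQ x)
    (h3 : xQ x ≤ (9 / 4 : ℝ)) : Nonempty (Rep (15 * 8) DSA (AA * BB * DSA) cA35 false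
      (fe y (Dh DSA cA35 y r))) :=
  rep_nz (c := cA35) (p := 8) DSA_pos RA5_ok SA5_ok rfl RA5_len hf h0 h1 h2 h3

theorem cdA35 {y : Fin 4 → ℝ} (hy : ∑ i, y i = 4) {r : ℝ} {x : Fin 3 → ℝ} (hf : Face y r x)
    (h0 : ((15 : ℤ) : ℝ) / 16 ≤ r) (h1 : r ≤ ((16 : ℤ) : ℝ) / 16) (h2 : (13 / 8 : ℝ) ≤ xQ x)
    (h3 : xQ x ≤ (9 / 4 : ℝ)) : CellData DSA (· ≤ ·) xA35 y :=
  cellData_up (X := xA35) (DS := DSA) DSA_pos oA35_ok hy hf h0 h1 (h3.trans (by norm_num [xA35]))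
    (rpA35 hf h0 h1 h2 h3)

theorem rpA36 {y : Fin 4 → ℝ} {r : ℝ} {x : Fin 3 → ℝ} (hf : Face y r x)
    (h0 : ((0 : ℤ) : ℝ) / 16 ≤ r) (h1 : r ≤ ((5 : ℤ) : ℝ) / 16) (h2 : (9 / 4 : ℝ) ≤ xQ x)
    (h3 : xQ x ≤ (3 : ℝ)) : Nonempty (Rep (15 * 6) DSA (AA * BB * DSA) cA36 true
      (fe y (Dh DSA cA36 y r))) :=
  rep_z (c := cA36) (p := 6) (S := SA6) DSA_pos RA0_ok SA6_ok rfl rfl RA0_len (nth_allZ rfl) rfl
    hf h0 h1 h2 h3

theorem cdA36 {y : Fin 4 → ℝ} (hy : ∑ i, y i = 4) {r : ℝ} {x : Fin 3 → ℝ} (hf : Face y r x)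
    (h0 : ((0 : ℤ) : ℝ) / 16 ≤ r) (h1 : r ≤ ((5 : ℤ) : ℝ) / 16) (h2 : (9 / 4 : ℝ) ≤ xQ x)
    (h3 : xQ x ≤ (3 : ℝ)) : CellData DSA (· ≤ ·) xA36 y :=
  cellData_up (X := xA36) (DS := DSA) DSA_pos oA36_ok hy hf h0 h1 (h3.trans (by norm_num [xA36]))
    (rpA36 hf h0 h1 h2 h3)

theorem rpA37 {y : Fin 4 → ℝ} {r : ℝ} {x : Fin 3 → ℝ} (hf : Face y r x)
    (h0 : ((5 : ℤ) : ℝ) / 16 ≤ r) (h1 : r ≤ ((10 : ℤ) : ℝ) / 16) (h2 : (9 / 4 : ℝ) ≤ xQ x)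
    (h3 : xQ x ≤ (3 : ℝ)) : Nonempty (Rep (15 * 8) DSA (AA * BB * DSA) cA37 false
      (fe y (Dh DSA cA37 y r))) :=
  rep_nz (c := cA37) (p := 8) DSA_pos RA1_ok SA6_ok rfl RA1_len hf h0 h1 h2 h3

theorem cdA37 {y : Fin 4 → ℝ} (hy : ∑ i, y i = 4) {r : ℝ} {x : Fin 3 → ℝ} (hf : Face y r x)
    (h0 : ((5 : ℤ) : ℝ) / 16 ≤ r) (h1 : r ≤ ((10 : ℤ) : ℝ) / 16) (h2 : (9 / 4 : ℝ) ≤ xQ x)
    (h3 : xQ x ≤ (3 : ℝ)) : CellData DSA (· ≤ ·) xA37 y :=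
  cellData_up (X := xA37) (DS := DSA) DSA_pos oA37_ok hy hf h0 h1 (h3.trans (by norm_num [xA37]))
    (rpA37 hf h0 h1 h2 h3)

theorem rpA38 {y : Fin 4 → ℝ} {r : ℝ} {x : Fin 3 → ℝ} (hf : Face y r x)
    (h0 : ((10 : ℤ) : ℝ) / 16 ≤ r) (h1 : r ≤ ((13 : ℤ) : ℝ) / 16) (h2 : (9 / 4 : ℝ) ≤ xQ x)
    (h3 : xQ x ≤ (3 : ℝ)) : Nonempty (Rep (15 * 8) DSA (AA * BB * DSA) cA38 false
      (fe y (Dh DSA cA38 y r))) :=
  rep_nz (c := cA38) (p := 8) DSA_pos RA2_ok SA6_ok rfl RA2_len hf h0 h1 h2 h3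

theorem cdA38 {y : Fin 4 → ℝ} (hy : ∑ i, y i = 4) {r : ℝ} {x : Fin 3 → ℝ} (hf : Face y r x)
    (h0 : ((10 : ℤ) : ℝ) / 16 ≤ r) (h1 : r ≤ ((13 : ℤ) : ℝ) / 16) (h2 : (9 / 4 : ℝ) ≤ xQ x)
    (h3 : xQ x ≤ (3 : ℝ)) : CellData DSA (· ≤ ·) xA38 y :=
  cellData_up (X := xA38) (DS := DSA) DSA_pos oA38_ok hy hf h0 h1 (h3.trans (by norm_num [xA38]))
    (rpA38 hf h0 h1 h2 h3)

theorem rpA39 {y : Fin 4 → ℝ} {r : ℝ} {x : Fin 3 → ℝ} (hf : Face y r x)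
    (h0 : ((13 : ℤ) : ℝ) / 16 ≤ r) (h1 : r ≤ ((14 : ℤ) : ℝ) / 16) (h2 : (9 / 4 : ℝ) ≤ xQ x)
    (h3 : xQ x ≤ (3 : ℝ)) : Nonempty (Rep (15 * 8) DSA (AA * BB * DSA) cA39 false
      (fe y (Dh DSA cA39 y r))) :=
  rep_nz (c := cA39) (p := 8) DSA_pos RA3_ok SA6_ok rfl RA3_len hf h0 h1 h2 h3

theorem cdA39 {y : Fin 4 → ℝ} (hy : ∑ i, y i = 4) {r : ℝ} {x : Fin 3 → ℝ} (hf : Face y r x)
    (h0 : ((13 : ℤ) : ℝ) / 16 ≤ r) (h1 : r ≤ ((14 : ℤ) : ℝ) / 16) (h2 : (9 / 4 : ℝ) ≤ xQ x)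
    (h3 : xQ x ≤ (3 : ℝ)) : CellData DSA (· ≤ ·) xA39 y :=
  cellData_up (X := xA39) (DS := DSA) DSA_pos oA39_ok hy hf h0 h1 (h3.trans (by norm_num [xA39]))
    (rpA39 hf h0 h1 h2 h3)

theorem rpA40 {y : Fin 4 → ℝ} {r : ℝ} {x : Fin 3 → ℝ} (hf : Face y r x)
    (h0 : ((14 : ℤ) : ℝ) / 16 ≤ r) (h1 : r ≤ ((15 : ℤ) : ℝ) / 16) (h2 : (9 / 4 : ℝ) ≤ xQ x)
    (h3 : xQ x ≤ (3 : ℝ)) : Nonempty (Rep (15 * 8) DSA (AA * BB * DSA) cA40 false
      (fe y (Dh DSA cA40 y r))) :=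
  rep_nz (c := cA40) (p := 8) DSA_pos RA4_ok SA6_ok rfl RA4_len hf h0 h1 h2 h3

theorem cdA40 {y : Fin 4 → ℝ} (hy : ∑ i, y i = 4) {r : ℝ} {x : Fin 3 → ℝ} (hf : Face y r x)
    (h0 : ((14 : ℤ) : ℝ) / 16 ≤ r) (h1 : r ≤ ((15 : ℤ) : ℝ) / 16) (h2 : (9 / 4 : ℝ) ≤ xQ x)
    (h3 : xQ x ≤ (3 : ℝ)) : CellData DSA (· ≤ ·) xA40 y :=
  cellData_up (X := xA40) (DS := DSA) DSA_pos oA40_ok hy hf h0 h1 (h3.trans (by norm_num [xA40]))
    (rpA40 hf h0 h1 h2 h3)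

theorem rpA41 {y : Fin 4 → ℝ} {r : ℝ} {x : Fin 3 → ℝ} (hf : Face y r x)
    (h0 : ((15 : ℤ) : ℝ) / 16 ≤ r) (h1 : r ≤ ((16 : ℤ) : ℝ) / 16) (h2 : (9 / 4 : ℝ) ≤ xQ x)
    (h3 : xQ x ≤ (3 : ℝ)) : Nonempty (Rep (15 * 8) DSA (AA * BB * DSA) cA41 false
      (fe y (Dh DSA cA41 y r))) :=
  rep_nz (c := cA41) (p := 8) DSA_pos RA5_ok SA6_ok rfl RA5_len hf h0 h1 h2 h3

theorem cdA41 {y : Fin 4 → ℝ} (hy : ∑ i, y i = 4) {r : ℝ} {x : Fin 3 → ℝ} (hf : Face y r x)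
    (h0 : ((15 : ℤ) : ℝ) / 16 ≤ r) (h1 : r ≤ ((16 : ℤ) : ℝ) / 16) (h2 : (9 / 4 : ℝ) ≤ xQ x)
    (h3 : xQ x ≤ (3 : ℝ)) : CellData DSA (· ≤ ·) xA41 y :=
  cellData_up (X := xA41) (DS := DSA) DSA_pos oA41_ok hy hf h0 h1 (h3.trans (by norm_num [xA41]))
    (rpA41 hf h0 h1 h2 h3)

theorem classA (y : Fin 4 → ℝ) (hy : Nrm y) : ∃ i, i < 42 ∧ CellData DSA (· ≤ ·) (nthCI ciA i) y := by
  obtain ⟨r, x, hf⟩ := exists_face' y hy
  have hQ := xQ_bounds x hf.hs hf.hx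
  have hr0 := hf.r0
  have hr1 := hf.r1
  rcases le_total (xQ x) (9 / 16 : ℝ) with hs0 | hs0
  · rcases le_total r (5 / 16 : ℝ) with hr_0 | hr_0
    · exact ⟨0, by norm_num, cdA0 hy.2 hf (by norm_num; linarith) (by norm_num; linarith) hQ.1 hs0⟩
    · rcases le_total r (5 / 8 : ℝ) with hr_1 | hr_1
      · exact ⟨1, by norm_num, cdA1 hy.2 hf (by norm_num; linarith) (by norm_num; linarith) hQ.1 hs0⟩
      · rcases le_total r (13 / 16 : ℝ) with hr_2 | hr_2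
        · exact ⟨2, by norm_num, cdA2 hy.2 hf (by norm_num; linarith) (by norm_num; linarith) hQ.1 hs0⟩
        · rcases le_total r (7 / 8 : ℝ) with hr_3 | hr_3
          · exact ⟨3, by norm_num, cdA3 hy.2 hf (by norm_num; linarith) (by norm_num; linarith) hQ.1 hs0⟩
          · rcases le_total r (15 / 16 : ℝ) with hr_4 | hr_4
            · exact ⟨4, by norm_num, cdA4 hy.2 hf (by norm_num; linarith) (by norm_num; linarith) hQ.1 hs0⟩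
            · exact ⟨5, by norm_num, cdA5 hy.2 hf (by norm_num; linarith) (by norm_num; linarith) hQ.1 hs0⟩
  · rcases le_total (xQ x) (13 / 16 : ℝ) with hs1 | hs1
    · rcases le_total r (5 / 16 : ℝ) with hr_0 | hr_0
      · exact ⟨6, by norm_num, cdA6 hy.2 hf (by norm_num; linarith) (by norm_num; linarith) hs0 hs1⟩
      · rcases le_total r (5 / 8 : ℝ) with hr_1 | hr_1
        · exact ⟨7, by norm_num, cdA7 hy.2 hf (by norm_num; linarith) (by norm_num; linarith) hs0 hs1⟩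
        · rcases le_total r (13 / 16 : ℝ) with hr_2 | hr_2
          · exact ⟨8, by norm_num, cdA8 hy.2 hf (by norm_num; linarith) (by norm_num; linarith) hs0 hs1⟩
          · rcases le_total r (7 / 8 : ℝ) with hr_3 | hr_3
            · exact ⟨9, by norm_num, cdA9 hy.2 hf (by norm_num; linarith) (by norm_num; linarith) hs0 hs1⟩
            · rcases le_total r (15 / 16 : ℝ) with hr_4 | hr_4
              · exact ⟨10, by norm_num, cdA10 hy.2 hf (by norm_num; linarith) (by norm_num; linarith) hs0 hs1⟩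
              · exact ⟨11, by norm_num, cdA11 hy.2 hf (by norm_num; linarith) (by norm_num; linarith) hs0 hs1⟩
    · rcases le_total (xQ x) (1 : ℝ) with hs2 | hs2
      · rcases le_total r (5 / 16 : ℝ) with hr_0 | hr_0
        · exact ⟨12, by norm_num, cdA12 hy.2 hf (by norm_num; linarith) (by norm_num; linarith) hs1 hs2⟩
        · rcases le_total r (5 / 8 : ℝ) with hr_1 | hr_1
          · exact ⟨13, by norm_num, cdA13 hy.2 hf (by norm_num; linarith) (by norm_num; linarith) hs1 hs2⟩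
          · rcases le_total r (13 / 16 : ℝ) with hr_2 | hr_2
            · exact ⟨14, by norm_num, cdA14 hy.2 hf (by norm_num; linarith) (by norm_num; linarith) hs1 hs2⟩
            · rcases le_total r (7 / 8 : ℝ) with hr_3 | hr_3
              · exact ⟨15, by norm_num, cdA15 hy.2 hf (by norm_num; linarith) (by norm_num; linarith) hs1 hs2⟩
              · rcases le_total r (15 / 16 : ℝ) with hr_4 | hr_4
                · exact ⟨16, by norm_num, cdA16 hy.2 hf (by norm_num; linarith) (by norm_num; linarith) hs1 hs2⟩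
                · exact ⟨17, by norm_num, cdA17 hy.2 hf (by norm_num; linarith) (by norm_num; linarith) hs1 hs2⟩
      · rcases le_total (xQ x) (5 / 4 : ℝ) with hs3 | hs3
        · rcases le_total r (5 / 16 : ℝ) with hr_0 | hr_0
          · exact ⟨18, by norm_num, cdA18 hy.2 hf (by norm_num; linarith) (by norm_num; linarith) hs2 hs3⟩
          · rcases le_total r (5 / 8 : ℝ) with hr_1 | hr_1
            · exact ⟨19, by norm_num, cdA19 hy.2 hf (by norm_num; linarith) (by norm_num; linarith) hs2 hs3⟩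
            · rcases le_total r (13 / 16 : ℝ) with hr_2 | hr_2
              · exact ⟨20, by norm_num, cdA20 hy.2 hf (by norm_num; linarith) (by norm_num; linarith) hs2 hs3⟩
              · rcases le_total r (7 / 8 : ℝ) with hr_3 | hr_3
                · exact ⟨21, by norm_num, cdA21 hy.2 hf (by norm_num; linarith) (by norm_num; linarith) hs2 hs3⟩
                · rcases le_total r (15 / 16 : ℝ) with hr_4 | hr_4
                  · exact ⟨22, by norm_num, cdA22 hy.2 hf (by norm_num; linarith) (by norm_num; linarith) hs2 hs3⟩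
                  · exact ⟨23, by norm_num, cdA23 hy.2 hf (by norm_num; linarith) (by norm_num; linarith) hs2 hs3⟩
        · rcases le_total (xQ x) (13 / 8 : ℝ) with hs4 | hs4
          · rcases le_total r (5 / 16 : ℝ) with hr_0 | hr_0
            · exact ⟨24, by norm_num, cdA24 hy.2 hf (by norm_num; linarith) (by norm_num; linarith) hs3 hs4⟩
            · rcases le_total r (5 / 8 : ℝ) with hr_1 | hr_1
              · exact ⟨25, by norm_num, cdA25 hy.2 hf (by norm_num; linarith) (by norm_num; linarith) hs3 hs4⟩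
              · rcases le_total r (13 / 16 : ℝ) with hr_2 | hr_2
                · exact ⟨26, by norm_num, cdA26 hy.2 hf (by norm_num; linarith) (by norm_num; linarith) hs3 hs4⟩
                · rcases le_total r (7 / 8 : ℝ) with hr_3 | hr_3
                  · exact ⟨27, by norm_num, cdA27 hy.2 hf (by norm_num; linarith) (by norm_num; linarith) hs3 hs4⟩
                  · rcases le_total r (15 / 16 : ℝ) with hr_4 | hr_4
                    · exact ⟨28, by norm_num, cdA28 hy.2 hf (by norm_num; linarith) (by norm_num; linarith) hs3 hs4⟩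
                    · exact ⟨29, by norm_num, cdA29 hy.2 hf (by norm_num; linarith) (by norm_num; linarith) hs3 hs4⟩
          · rcases le_total (xQ x) (9 / 4 : ℝ) with hs5 | hs5
            · rcases le_total r (5 / 16 : ℝ) with hr_0 | hr_0
              · exact ⟨30, by norm_num, cdA30 hy.2 hf (by norm_num; linarith) (by norm_num; linarith) hs4 hs5⟩
              · rcases le_total r (5 / 8 : ℝ) with hr_1 | hr_1
                · exact ⟨31, by norm_num, cdA31 hy.2 hf (by norm_num; linarith) (by norm_num; linarith) hs4 hs5⟩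
                · rcases le_total r (13 / 16 : ℝ) with hr_2 | hr_2
                  · exact ⟨32, by norm_num, cdA32 hy.2 hf (by norm_num; linarith) (by norm_num; linarith) hs4 hs5⟩
                  · rcases le_total r (7 / 8 : ℝ) with hr_3 | hr_3
                    · exact ⟨33, by norm_num, cdA33 hy.2 hf (by norm_num; linarith) (by norm_num; linarith) hs4 hs5⟩
                    · rcases le_total r (15 / 16 : ℝ) with hr_4 | hr_4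
                      · exact ⟨34, by norm_num, cdA34 hy.2 hf (by norm_num; linarith) (by norm_num; linarith) hs4 hs5⟩
                      · exact ⟨35, by norm_num, cdA35 hy.2 hf (by norm_num; linarith) (by norm_num; linarith) hs4 hs5⟩
            · rcases le_total r (5 / 16 : ℝ) with hr_0 | hr_0
              · exact ⟨36, by norm_num, cdA36 hy.2 hf (by norm_num; linarith) (by norm_num; linarith) hs5 hQ.2⟩
              · rcases le_total r (5 / 8 : ℝ) with hr_1 | hr_1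
                · exact ⟨37, by norm_num, cdA37 hy.2 hf (by norm_num; linarith) (by norm_num; linarith) hs5 hQ.2⟩
                · rcases le_total r (13 / 16 : ℝ) with hr_2 | hr_2
                  · exact ⟨38, by norm_num, cdA38 hy.2 hf (by norm_num; linarith) (by norm_num; linarith) hs5 hQ.2⟩
                  · rcases le_total r (7 / 8 : ℝ) with hr_3 | hr_3
                    · exact ⟨39, by norm_num, cdA39 hy.2 hf (by norm_num; linarith) (by norm_num; linarith) hs5 hQ.2⟩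
                    · rcases le_total r (15 / 16 : ℝ) with hr_4 | hr_4
                      · exact ⟨40, by norm_num, cdA40 hy.2 hf (by norm_num; linarith) (by norm_num; linarith) hs5 hQ.2⟩
                      · exact ⟨41, by norm_num, cdA41 hy.2 hf (by norm_num; linarith) (by norm_num; linarith) hs5 hQ.2⟩

end Vale.Agent.Lib.P154.Q4.Net
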