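import Vale.Agent.Lib.P154.Ineq4.Check
import Vale.Agent.Lib.P154.Ineq4.SliceB

/-! cells (B) -/

namespace Vale.Agent.Lib.P154.Q4.Net

set_option maxRecDepth 100000

def DSB : ℤ := 64424509440

theorem DSB_pos : 0 < DSB := by decide

theorem RB0_ok : RIntOK 6 RB0 (((0 : ℤ) : ℝ) / 16) (((3 : ℤ) : ℝ) / 16) :=
  rint_of 5 RB0 0 3 (by decide) (by decide +kernel)

theorem RB0_len : RB0.length = 6 := by decide +kernel

theorem RB1_ok : RIntOK 8 RB1 (((3 : ℤ) : ℝ) / 16) (((6 : ℤ) : ℝ) / 16) :=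
  rint_of 7 RB1 3 6 (by decide) (by decide +kernel)

theorem RB1_len : RB1.length = 8 := by decide +kernel

theorem RB2_ok : RIntOK 8 RB2 (((6 : ℤ) : ℝ) / 16) (((10 : ℤ) : ℝ) / 16) :=
  rint_of 7 RB2 6 10 (by decide) (by decide +kernel)

theorem RB2_len : RB2.length = 8 := by decide +kernel

theorem RB3_ok : RIntOK 8 RB3 (((10 : ℤ) : ℝ) / 16) (((13 : ℤ) : ℝ) / 16) :=
  rint_of 7 RB3 10 13 (by decide) (by decide +kernel)

theorem RB3_len : RB3.length = 8 := by decide +kernel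

theorem RB4_ok : RIntOK 8 RB4 (((13 : ℤ) : ℝ) / 16) (((16 : ℤ) : ℝ) / 16) :=
  rint_of 7 RB4 13 16 (by decide) (by decide +kernel)

theorem RB4_len : RB4.length = 8 := by decide +kernel

def cB0 : Cell := ⟨RB0, zS SB0, MZ, [0, 32212254720, -64424509440, 16106127360, -10737418240, -64424509440, 15032385536, 103079215104, -12884901888, -107374182400, 42949672960],
  [0, 0, 0, 0, 0, 0]⟩
def xB0 : CI := ⟨cB0, 6, true, 3, 9⟩
def oB0 : OC := ⟨420, [0, 420, 210, -70, 35, -21, 14, -10],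
  [0, 420, 210, -70, 35, -21, 14, -10],
  2048, 1664, [⟨0, 0, 0, 2477⟩], 2048, 1664, [⟨0, 0, 0, 2477⟩]⟩
def cB1 : Cell := ⟨RB1, SB0, MF, [0, 32212254720, -64424509440, 16106127360, -10737418240, -64424509440, 15032385536, 103079215104, -12884901888, -107374182400, 42949672960],
  [0, 0, 0, 0, 0, 0, 0, 0]⟩
def xB1 : CI := ⟨cB1, 8, false, 6, 9⟩
def oB1 : OC := ⟨420, [0, 420, 210, -70, 35, -21, 14, -10],
  [0, 420, 210, -70, 35, -21, 14, -10],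
  1024, 640, [⟨0, 0, 0, 1453⟩], 1024, 640, [⟨0, 0, 0, 1453⟩]⟩
def cB2 : Cell := ⟨RB2, SB0, MF, [-581400, 32229797580, -64547298360, 15260788440, -10173858960, -58574695200, 23290207500, 159704280000, -19963035000, -183933548400, 73573419360],
  [0, 0, 0, 0, 0, 0, 0, 0]⟩
def xB2 : CI := ⟨cB2, 8, false, 10, 9⟩
def oB2 : OC := ⟨1073741824, [-9690, 1073748828, 537163293, -179298051, 84782158, -48812246, 55452875, -43793702],
  [-9690, 1073748828, 537163293, -179298051, 84782158, -48812246, 55452875, -43793702],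
  1024, 384, [⟨0, 3, 1, 520⟩, ⟨0, 2, 1, 1044⟩, ⟨0, 1, 1, 1739⟩], 1024, 384, [⟨0, 3, 1, 520⟩, ⟨0, 2, 1, 1044⟩, ⟨0, 1, 1, 1739⟩]⟩
def cB3 : Cell := ⟨RB3, SB0, MF, [-275760, 32210730240, -64489750200, 16287280560, -10858187040, -64438236000, 11781478380, 80787280320, -10098410040, -32946564000, 13178625600],
  [12164550300, -73780302570, 169612909350, -176387781255, 71369993820, -805477950, -420767085, -117666300]⟩
def xB3 : CI := ⟨cB3, 8, false, 13, 9⟩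
def oB3 : OC := ⟨1073741824, [-4596, 1073748229, 536845504, -179138195, 90484892, -53698530, 28051139, -7844420],
  [810965424, 5992435067, 11844372794, 11580047222, 4848484480],
  4096, 2601, [⟨0, 0, 0, 4304⟩, ⟨0, 1, 1, 7814⟩], 512, 96, [⟨0, 4, 1, 115⟩, ⟨0, 3, 1, 192⟩]⟩
def cB4 : Cell := ⟨RB4, SB0, MF, [-334320, 32207178660, -64566774360, 16469271000, -10979514000, -65080909200, 11181482760, 76673024640, -9584128080, -27563839800, 11025535920],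
  [4752770241390, -21465258379260, 36332102845320, -27321960967965, 7706250512580, -813511365, -399338670, -98442285]⟩
def xB4 : CI := ⟨cB4, 8, false, 16, 9⟩
def oB4 : OC := ⟨1073741824, [-5572, 1073765041, 536786311, -179352151, 91495950, -54234091, 26622578, -6562819],
  [316851343854, 1432090990325, 2422676975999, 1821284712380, 513841530122],
  256, 141, [⟨0, 0, 0, 272⟩, ⟨0, 1, 1, 542⟩], 1024, 0, [⟨0, 8, 1, 23⟩, ⟨0, 5, 1, 115⟩, ⟨0, 4, 1, 192⟩]⟩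
def cB5 : Cell := ⟨RB0, zS SB1, MZ, [0, 32212254720, -64424509440, 16106127360, -10737418240, -64424509440, 15032385536, 103079215104, -12884901888, -107374182400, 42949672960],
  [0, 0, 0, 0, 0, 0]⟩
def xB5 : CI := ⟨cB5, 6, true, 3, 16⟩
def oB5 : OC := ⟨420, [0, 420, 210, -70, 35, -21, 14, -10],
  [0, 420, 210, -70, 35, -21, 14, -10],
  4096, 3328, [⟨0, 0, 0, 5377⟩], 4096, 3328, [⟨0, 0, 0, 5377⟩]⟩
def cB6 : Cell := ⟨RB1, SB1, MF, [0, 32212254720, -64424509440, 16106127360, -10737418240, -64424509440, 15032385536, 103079215104, -12884901888, -107374182400, 42949672960],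
  [0, 0, 0, 0, 0, 0, 0, 0]⟩
def xB6 : CI := ⟨cB6, 8, false, 6, 16⟩
def oB6 : OC := ⟨420, [0, 420, 210, -70, 35, -21, 14, -10],
  [0, 420, 210, -70, 35, -21, 14, -10],
  2048, 1280, [⟨0, 0, 0, 3329⟩], 2048, 1280, [⟨0, 0, 0, 3329⟩]⟩
def cB7 : Cell := ⟨RB2, SB1, MF, [-1401180, 32231877240, -63561193200, 15361559100, -10241039400, -75702279600, 22499519700, 154282420800, -19285302600, -91525488600, 36610195440],
  [0, 0, 0, 0, 0, 0, 0, 0]⟩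
def xB7 : CI := ⟨cB7, 8, false, 10, 16⟩
def oB7 : OC := ⟨1073741824, [-23353, 1073606036, 537197954, -176558870, 85341995, -63085233, 53570285, -21791783],
  [-23353, 1073606036, 537197954, -176558870, 85341995, -63085233, 53570285, -21791783],
  2048, 768, [⟨0, 3, 1, 1048⟩, ⟨0, 2, 1, 2096⟩, ⟨0, 1, 1, 4183⟩], 2048, 768, [⟨0, 3, 1, 1048⟩, ⟨0, 2, 1, 2096⟩, ⟨0, 1, 1, 4183⟩]⟩
def cB8 : Cell := ⟨RB3, SB1, MF, [-1510560, 32164636200, -62597705760, 16323002280, -10882001520, -86409814800, 20130162360, 138035399040, -17254424880, -57524052600, 23009621040],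
  [12164859000, -73785411525, 169624432860, -176308946070, 71367017010, -1080122685, -718934370, -205443045]⟩
def xB8 : CI := ⟨cB8, 8, false, 13, 16⟩
def oB8 : OC := ⟨1073741824, [-25176, 1073407632, 536077270, -173882516, 90683346, -72008179, 47928958, -13696203],
  [810965424, 5992435067, 11844372794, 11580047222, 4848484480],
  4096, 768, [⟨0, 3, 1, 2176⟩, ⟨0, 0, 0, 4832⟩, ⟨1, 0, 0, 9647⟩], 512, 96, [⟨0, 4, 1, 115⟩, ⟨0, 3, 1, 192⟩]⟩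
def cB9 : Cell := ⟨RB4, SB1, MF, [-8517240, 32023943940, -57839344560, 16051732200, -10701154800, -112131948000, 26851350960, 184123549440, -23015443680, -68221561800, 27288624720],
  [4752772287120, -21465285184965, 36332148654000, -27321680658390, 7706285307480, -1401649350, -958976820, -243648435]⟩
def xB9 : CI := ⟨cB9, 8, false, 16, 16⟩
def oB9 : OC := ⟨1073741824, [-141954, 1071977994, 533732399, -160664846, 89176290, -93443290, 63931788, -16243229],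
  [316851343854, 1432090990325, 2422676975999, 1821284712380, 513841530122],
  256, 0, [⟨0, 2, 0, 110⟩, ⟨0, 2, 1, 274⟩, ⟨1, 0, 0, 683⟩], 1024, 0, [⟨0, 8, 1, 23⟩, ⟨0, 5, 1, 115⟩, ⟨0, 4, 1, 192⟩]⟩
def cB10 : Cell := ⟨RB0, zS SB2, MZ, [0, 32212254720, -64424509440, 16106127360, -10737418240, -64424509440, 15032385536, 103079215104, -12884901888, -107374182400, 42949672960],
  [0, 0, 0, 0, 0, 0]⟩
def xB10 : CI := ⟨cB10, 6, true, 3, 24⟩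
def oB10 : OC := ⟨420, [0, 420, 210, -70, 35, -21, 14, -10],
  [0, 420, 210, -70, 35, -21, 14, -10],
  4096, 3328, [⟨0, 0, 0, 5707⟩], 4096, 3328, [⟨0, 0, 0, 5707⟩]⟩
def cB11 : Cell := ⟨RB1, SB2, MF, [0, 32212254720, -64424509440, 16106127360, -10737418240, -64424509440, 15032385536, 103079215104, -12884901888, -107374182400, 42949672960],
  [0, 0, 0, 0, 0, 0, 0, 0]⟩
def xB11 : CI := ⟨cB11, 8, false, 6, 24⟩
def oB11 : OC := ⟨420, [0, 420, 210, -70, 35, -21, 14, -10],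
  [0, 420, 210, -70, 35, -21, 14, -10],
  2048, 1280, [⟨0, 0, 0, 3659⟩], 2048, 1280, [⟨0, 0, 0, 3659⟩]⟩
def cB12 : Cell := ⟨RB2, SB2, MF, [-1857660, 32173136520, -62939965320, 16510401180, -11006934120, -83468155200, 18174725940, 124626692160, -15578336520, -49143528000, 19657411200],
  [0, 0, 0, 0, 0, 0, 0, 0]⟩
def xB12 : CI := ⟨cB12, 8, false, 10, 24⟩
def oB12 : OC := ⟨1073741824, [-30961, 1073392100, 536218942, -174833237, 91724451, -69556796, 43273157, -11700840],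
  [-30961, 1073392100, 536218942, -174833237, 91724451, -69556796, 43273157, -11700840],
  2048, 768, [⟨0, 3, 1, 1064⟩, ⟨0, 2, 1, 2368⟩, ⟨1, 0, 0, 4733⟩], 2048, 768, [⟨0, 3, 1, 1064⟩, ⟨0, 2, 1, 2368⟩, ⟨1, 0, 0, 4733⟩]⟩
def cB13 : Cell := ⟨RB3, SB2, MF, [-2992800, 31928010480, -60983649360, 18305283780, -12203522520, -99367900800, 18094449660, 124076226240, -15509528280, -37303723800, 14921489520],
  [12165229560, -73795389345, 169683589290, -176241693720, 71201826885, -1242098760, -646230345, -133227585]⟩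
def xB13 : CI := ⟨cB13, 8, false, 13, 24⟩
def oB13 : OC := ⟨1073741824, [-49880, 1072742444, 532133508, -169399026, 101696021, -82806584, 43082023, -8881839],
  [810965424, 5992435067, 11844372794, 11580047222, 4848484480],
  4096, 768, [⟨0, 3, 1, 1760⟩, ⟨0, 2, 1, 4416⟩, ⟨1, 0, 0, 11077⟩], 512, 96, [⟨0, 4, 1, 115⟩, ⟨0, 3, 1, 192⟩]⟩
def cB14 : Cell := ⟨RB4, SB2, MF, [-17332200, 30898072500, -50041710360, 21234029040, -14156019360, -150990196800, 26506034940, 181755668160, -22719458520, -47498119200, 18999247680],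
  [4752774490860, -21465339784455, 36332430121860, -27321355756965, 7705853449410, -1887377460, -946644105, -169636140]⟩
def xB14 : CI := ⟨cB14, 8, false, 16, 24⟩
def oB14 : OC := ⟨1073741824, [-288870, 1068338028, 514967875, -139004751, 117966828, -125825164, 63109607, -11309076],
  [316851343854, 1432090990325, 2422676975999, 1821284712380, 513841530122],
  256, 0, [⟨0, 4, 1, 95⟩, ⟨0, 2, 1, 318⟩, ⟨0, 0, 1, 793⟩], 1024, 0, [⟨0, 8, 1, 23⟩, ⟨0, 5, 1, 115⟩, ⟨0, 4, 1, 192⟩]⟩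
def cB15 : Cell := ⟨RB0, zS SB3, MZ, [0, 32212254720, -64424509440, 16106127360, -10737418240, -64424509440, 15032385536, 103079215104, -12884901888, -107374182400, 42949672960],
  [0, 0, 0, 0, 0, 0]⟩
def xB15 : CI := ⟨cB15, 6, true, 3, 36⟩
def oB15 : OC := ⟨420, [0, 420, 210, -70, 35, -21, 14, -10],
  [0, 420, 210, -70, 35, -21, 14, -10],
  4096, 3328, [⟨0, 0, 0, 6091⟩], 4096, 3328, [⟨0, 0, 0, 6091⟩]⟩
def cB16 : Cell := ⟨RB1, SB3, MF, [-433260, 32204607900, -64193063400, 16375621860, -10917081240, -70491132000, 14281613220, 97931062080, -12241382760, -41415465000, 16566186000],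
  [0, 0, 0, 0, 0, 0, 0, 0]⟩
def xB16 : CI := ⟨cB16, 8, false, 6, 36⟩
def oB16 : OC := ⟨1073741824, [-7221, 1073696477, 536743465, -178314065, 90975677, -58742610, 34003841, -9860825],
  [-7221, 1073696477, 536743465, -178314065, 90975677, -58742610, 34003841, -9860825],
  2048, 1280, [⟨0, 2, 1, 1448⟩, ⟨0, 0, 0, 2224⟩, ⟨0, 1, 1, 4043⟩], 2048, 1280, [⟨0, 2, 1, 1448⟩, ⟨0, 0, 0, 2224⟩, ⟨0, 1, 1, 4043⟩]⟩
def cB17 : Cell := ⟨RB2, SB3, MF, [-12768060, 32079772380, -61371749880, 17507874240, -11671916160, -90709222800, 16303624260, 111796280640, -13974535080, -33524597400, 13409838960],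
  [0, 0, 0, 0, 0, 0, 0, 0]⟩
def xB17 : CI := ⟨cB17, 8, false, 10, 36⟩
def oB17 : OC := ⟨1073741824, [-212801, 1072033499, 534662873, -170477083, 97265968, -75591019, 38818153, -7982047],
  [-212801, 1072033499, 534662873, -170477083, 97265968, -75591019, 38818153, -7982047],
  2048, 768, [⟨0, 3, 1, 1072⟩, ⟨0, 2, 1, 2144⟩, ⟨1, 0, 0, 5373⟩], 2048, 768, [⟨0, 3, 1, 1072⟩, ⟨0, 2, 1, 2144⟩, ⟨1, 0, 0, 5373⟩]⟩
def cB18 : Cell := ⟨RB3, SB3, MF, [-87232740, 31417239720, -54839139840, 20642652540, -13761768360, -116627810400, 17289098820, 118553820480, -14819227560, -26975008200, 10790003280],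
  [12186289545, -73932764685, 169811281980, -175985672490, 71007046155, -1457847630, -617467815, -96339315]⟩
def xB18 : CI := ⟨cB18, 8, false, 13, 36⟩
def oB18 : OC := ⟨1073741824, [-1453879, 1063584088, 523620662, -152330944, 114681403, -97189842, 41164521, -6422621],
  [810965424, 5992435067, 11844372794, 11580047222, 4848484480],
  4096, 768, [⟨0, 3, 1, 2032⟩, ⟨0, 2, 1, 5088⟩, ⟨0, 0, 1, 12741⟩], 512, 96, [⟨0, 4, 1, 115⟩, ⟨0, 3, 1, 192⟩]⟩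
def cB19 : Cell := ⟨RB4, SB3, MF, [-709865820, 28519497840, -22127822280, 27505382400, -18336921600, -202881099600, 27533323020, 188799929280, -23599991160, -36306135600, 14522454240],
  [4752947624265, -21466236196125, 36333024765525, -27320192678295, 7705330836630, -2536013745, -983332965, -129664770]⟩
def xB19 : CI := ⟨cB19, 8, false, 16, 36⟩
def oB19 : OC := ⟨1073741824, [-11831097, 1008577250, 475324964, -61466173, 152807680, -169067583, 65555531, -8644318],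
  [316851343854, 1432090990325, 2422676975999, 1821284712380, 513841530122],
  256, 0, [⟨0, 4, 1, 74⟩, ⟨0, 2, 1, 368⟩, ⟨0, 0, 1, 921⟩], 1024, 0, [⟨0, 8, 1, 23⟩, ⟨0, 5, 1, 115⟩, ⟨0, 4, 1, 192⟩]⟩
def cB20 : Cell := ⟨RB0, zS SB4, MZ, [0, 32212254720, -64424509440, 16106127360, -10737418240, -64424509440, 15032385536, 103079215104, -12884901888, -107374182400, 42949672960],
  [0, 0, 0, 0, 0, 0]⟩
def xB20 : CI := ⟨cB20, 6, true, 3, 48⟩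
def oB20 : OC := ⟨420, [0, 420, 210, -70, 35, -21, 14, -10],
  [0, 420, 210, -70, 35, -21, 14, -10],
  16, 13, [⟨0, 0, 0, 25⟩], 16, 13, [⟨0, 0, 0, 25⟩]⟩
def cB21 : Cell := ⟨RB1, SB4, MF, [-752280, 32196592260, -64064368080, 16547320080, -11031546720, -71787025200, 13632963120, 93483175680, -11685396960, -34973043000, 13989217200],
  [0, 0, 0, 0, 0, 0, 0, 0]⟩
def xB21 : CI := ⟨cB21, 8, false, 6, 48⟩
def oB21 : OC := ⟨1073741824, [-12538, 1073636293, 536609871, -177956578, 91929556, -59822521, 32459436, -8326915],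
  [-12538, 1073636293, 536609871, -177956578, 91929556, -59822521, 32459436, -8326915],
  256, 160, [⟨0, 2, 1, 179⟩, ⟨0, 0, 0, 326⟩, ⟨1, 0, 0, 544⟩], 256, 160, [⟨0, 2, 1, 179⟩, ⟨0, 0, 0, 326⟩, ⟨1, 0, 0, 544⟩]⟩
def cB22 : Cell := ⟨RB2, SB4, MF, [-48696960, 31952335080, -58519608480, 18248223600, -12165482400, -100630141200, 16721610360, 114662471040, -14332808880, -30109384200, 12043753680],
  [0, 0, 0, 0, 0, 0, 0, 0]⟩
def xB22 : CI := ⟨cB22, 8, false, 10, 48⟩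
def oB22 : OC := ⟨1073741824, [-811616, 1068846024, 532538918, -162554468, 101379020, -83858451, 39813358, -7168901],
  [-811616, 1068846024, 532538918, -162554468, 101379020, -83858451, 39813358, -7168901],
  256, 96, [⟨0, 3, 1, 133⟩, ⟨0, 2, 1, 332⟩, ⟨0, 0, 1, 736⟩], 256, 96, [⟨0, 3, 1, 133⟩, ⟨0, 2, 1, 332⟩, ⟨0, 0, 1, 736⟩]⟩
def cB23 : Cell := ⟨RB3, SB4, MF, [-963364800, 30444952560, -25591125240, 22179545640, -14786363760, -177682963200, 25879516740, 177459543360, -22182442920, -36219624000, 14487849600],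
  [12405322560, -74731201635, 170054353770, -174767005215, 70878971730, -2221037040, -924268455, -129355800]⟩
def xB23 : CI := ⟨cB23, 8, false, 13, 48⟩
def oB23 : OC := ⟨1073741824, [-16056080, 1010354958, 507415876, -71086459, 123219698, -148069136, 61617897, -8623720],
  [810965424, 5992435067, 11844372794, 11580047222, 4848484480],
  256, 48, [⟨0, 2, 0, 79⟩, ⟨0, 1, 0, 264⟩, ⟨0, 0, 1, 880⟩], 512, 96, [⟨0, 4, 1, 115⟩, ⟨0, 3, 1, 192⟩]⟩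
def cB24 : Cell := ⟨RB4, SB4, MF, [-15965223780, 22332982560, 237524385240, 27150610860, -18100407240, -550366426800, 74372347980, 509981814720, -63747726840, -87828451200, 35131380480],
  [4756761463755, -21476771581230, 36334571394345, -27309373836315, 7705360400925, -6879580335, -2656155285, -313673040]⟩
def xB24 : CI := ⟨cB24, 8, false, 16, 48⟩
def oB24 : OC := ⟨1073741824, [-266087063, 306218243, 372216376, 659789959, 150836727, -458638689, 177077019, -20911536],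
  [316851343854, 1432090990325, 2422676975999, 1821284712380, 513841530122],
  256, 0, [⟨0, 5, 1, 33⟩, ⟨0, 3, 1, 164⟩, ⟨1, 0, 0, 820⟩, ⟨0, 0, 1, 1024⟩], 1024, 0, [⟨0, 8, 1, 23⟩, ⟨0, 5, 1, 115⟩, ⟨0, 4, 1, 192⟩]⟩

def ciB : List CI := [xB0, xB1, xB2, xB3, xB4, xB5, xB6, xB7, xB8, xB9, xB10, xB11, xB12, xB13, xB14, xB15, xB16, xB17, xB18, xB19, xB20, xB21, xB22, xB23, xB24]

def MXB : List ℕ := [17056461655277897965587623470694400, 51169384965833693896762870412083200, 17056461655277897965587623470694400, 153508154897501081690288611236249600, 51169384965833693896762870412083200, 51169384965833693896762870412083200, 460524464692503245070865833708748800, 17056461655277897965587623470694400, 153508154897501081690288611236249600, 153508154897501081690288611236249600, 51169384965833693896762870412083200]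
def MXDB : ℕ := 27494549797023076891610013085414195200
def MXTB : List ℕ := [17056461655277897965587623470694400, 51169384965833693896762870412083200, 17056461655277897965587623470694400, 153508154897501081690288611236249600, 51169384965833693896762870412083200, 51169384965833693896762870412083200, 460524464692503245070865833708748800, 17056461655277897965587623470694400, 153508154897501081690288611236249600, 153508154897501081690288611236249600, 51169384965833693896762870412083200, 27494549797023076891610013085414195200]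

theorem ciB_chk : cellsChk 64424509440 MXB MXDB ciB = true := by decide +kernel

theorem ciB_ok : CellsOK DSB MXTB ciB :=
  cellsOK_of 64424509440 MXB MXDB ciB rfl ciB_chk

theorem oB0_ok : loOK DSB xB0 0 (-256) 286 oB0 = true := by decide +kernel
theorem oB1_ok : loOK DSB xB1 3 (-256) 286 oB1 = true := by decide +kernel
theorem oB2_ok : loOK DSB xB2 6 (-256) 286 oB2 = true := by decide +kernel
theorem oB3_ok : loOK DSB xB3 10 (-115) 286 oB3 = true := by decide +kernel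
theorem oB4_ok : loOK DSB xB4 13 (-115) 286 oB4 = true := by decide +kernel
theorem oB5_ok : loOK DSB xB5 0 (-256) 427 oB5 = true := by decide +kernel
theorem oB6_ok : loOK DSB xB6 3 (-256) 427 oB6 = true := by decide +kernel
theorem oB7_ok : loOK DSB xB7 6 (-256) 427 oB7 = true := by decide +kernel
theorem oB8_ok : loOK DSB xB8 10 (-256) 427 oB8 = true := by decide +kernel
theorem oB9_ok : loOK DSB xB9 13 (-256) 427 oB9 = true := by decide +kernel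
theorem oB10_ok : loOK DSB xB10 0 (-256) 537 oB10 = true := by decide +kernel
theorem oB11_ok : loOK DSB xB11 3 (-256) 537 oB11 = true := by decide +kernel
theorem oB12_ok : loOK DSB xB12 6 (-256) 537 oB12 = true := by decide +kernel
theorem oB13_ok : loOK DSB xB13 10 (-256) 537 oB13 = true := by decide +kernel
theorem oB14_ok : loOK DSB xB14 13 (-256) 537 oB14 = true := by decide +kernel
theorem oB15_ok : loOK DSB xB15 0 (-256) 665 oB15 = true := by decide +kernel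
theorem oB16_ok : loOK DSB xB16 3 (-256) 665 oB16 = true := by decide +kernel
theorem oB17_ok : loOK DSB xB17 6 (-256) 665 oB17 = true := by decide +kernel
theorem oB18_ok : loOK DSB xB18 10 (-256) 665 oB18 = true := by decide +kernel
theorem oB19_ok : loOK DSB xB19 13 (-256) 665 oB19 = true := by decide +kernel
theorem oB20_ok : loOK DSB xB20 0 (-256) 768 oB20 = true := by decide +kernel
theorem oB21_ok : loOK DSB xB21 3 (-256) 768 oB21 = true := by decide +kernel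
theorem oB22_ok : loOK DSB xB22 6 (-256) 768 oB22 = true := by decide +kernel
theorem oB23_ok : loOK DSB xB23 10 (-256) 768 oB23 = true := by decide +kernel
theorem oB24_ok : loOK DSB xB24 13 (-256) 768 oB24 = true := by decide +kernel

theorem rpB0 {y : Fin 4 → ℝ} {r : ℝ} {x : Fin 3 → ℝ} (hf : Face y r x)
    (h0 : ((0 : ℤ) : ℝ) / 16 ≤ r) (h1 : r ≤ ((3 : ℤ) : ℝ) / 16) (h2 : (1 / 3 : ℝ) ≤ xQ x)
    (h3 : xQ x ≤ (9 / 16 : ℝ)) : Nonempty (Rep (15 * 6) DSB (AA * BB * DSB) cB0 true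
      (fe y (Dh DSB cB0 y r))) :=
  rep_z (c := cB0) (p := 6) (S := SB0) DSB_pos RB0_ok SB0_ok rfl rfl RB0_len (nth_allZ rfl) rfl
    hf h0 h1 h2 h3

theorem cdB0 {y : Fin 4 → ℝ} (hy : ∑ i, y i = 4) {r : ℝ} {x : Fin 3 → ℝ} (hf : Face y r x)
    (h0 : ((0 : ℤ) : ℝ) / 16 ≤ r) (h1 : r ≤ ((3 : ℤ) : ℝ) / 16) (h2 : (1 / 3 : ℝ) ≤ xQ x)
    (h3 : xQ x ≤ (9 / 16 : ℝ)) : CellData DSB (· ≥ ·) xB0 y :=
  cellData_lo (X := xB0) (DS := DSB) DSB_pos oB0_ok hy hf h0 h1 (h3.trans (by norm_num [xB0]))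
    (rpB0 hf h0 h1 h2 h3)

theorem rpB1 {y : Fin 4 → ℝ} {r : ℝ} {x : Fin 3 → ℝ} (hf : Face y r x)
    (h0 : ((3 : ℤ) : ℝ) / 16 ≤ r) (h1 : r ≤ ((6 : ℤ) : ℝ) / 16) (h2 : (1 / 3 : ℝ) ≤ xQ x)
    (h3 : xQ x ≤ (9 / 16 : ℝ)) : Nonempty (Rep (15 * 8) DSB (AA * BB * DSB) cB1 false
      (fe y (Dh DSB cB1 y r))) :=
  rep_nz (c := cB1) (p := 8) DSB_pos RB1_ok SB0_ok rfl RB1_len hf h0 h1 h2 h3

theorem cdB1 {y : Fin 4 → ℝ} (hy : ∑ i, y i = 4) {r : ℝ} {x : Fin 3 → ℝ} (hf : Face y r x)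
    (h0 : ((3 : ℤ) : ℝ) / 16 ≤ r) (h1 : r ≤ ((6 : ℤ) : ℝ) / 16) (h2 : (1 / 3 : ℝ) ≤ xQ x)
    (h3 : xQ x ≤ (9 / 16 : ℝ)) : CellData DSB (· ≥ ·) xB1 y :=
  cellData_lo (X := xB1) (DS := DSB) DSB_pos oB1_ok hy hf h0 h1 (h3.trans (by norm_num [xB1]))
    (rpB1 hf h0 h1 h2 h3)

theorem rpB2 {y : Fin 4 → ℝ} {r : ℝ} {x : Fin 3 → ℝ} (hf : Face y r x)
    (h0 : ((6 : ℤ) : ℝ) / 16 ≤ r) (h1 : r ≤ ((10 : ℤ) : ℝ) / 16) (h2 : (1 / 3 : ℝ) ≤ xQ x)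
    (h3 : xQ x ≤ (9 / 16 : ℝ)) : Nonempty (Rep (15 * 8) DSB (AA * BB * DSB) cB2 false
      (fe y (Dh DSB cB2 y r))) :=
  rep_nz (c := cB2) (p := 8) DSB_pos RB2_ok SB0_ok rfl RB2_len hf h0 h1 h2 h3

theorem cdB2 {y : Fin 4 → ℝ} (hy : ∑ i, y i = 4) {r : ℝ} {x : Fin 3 → ℝ} (hf : Face y r x)
    (h0 : ((6 : ℤ) : ℝ) / 16 ≤ r) (h1 : r ≤ ((10 : ℤ) : ℝ) / 16) (h2 : (1 / 3 : ℝ) ≤ xQ x)
    (h3 : xQ x ≤ (9 / 16 : ℝ)) : CellData DSB (· ≥ ·) xB2 y :=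
  cellData_lo (X := xB2) (DS := DSB) DSB_pos oB2_ok hy hf h0 h1 (h3.trans (by norm_num [xB2]))
    (rpB2 hf h0 h1 h2 h3)

theorem rpB3 {y : Fin 4 → ℝ} {r : ℝ} {x : Fin 3 → ℝ} (hf : Face y r x)
    (h0 : ((10 : ℤ) : ℝ) / 16 ≤ r) (h1 : r ≤ ((13 : ℤ) : ℝ) / 16) (h2 : (1 / 3 : ℝ) ≤ xQ x)
    (h3 : xQ x ≤ (9 / 16 : ℝ)) : Nonempty (Rep (15 * 8) DSB (AA * BB * DSB) cB3 false
      (fe y (Dh DSB cB3 y r))) :=
  rep_nz (c := cB3) (p := 8) DSB_pos RB3_ok SB0_ok rfl RB3_len hf h0 h1 h2 h3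

theorem cdB3 {y : Fin 4 → ℝ} (hy : ∑ i, y i = 4) {r : ℝ} {x : Fin 3 → ℝ} (hf : Face y r x)
    (h0 : ((10 : ℤ) : ℝ) / 16 ≤ r) (h1 : r ≤ ((13 : ℤ) : ℝ) / 16) (h2 : (1 / 3 : ℝ) ≤ xQ x)
    (h3 : xQ x ≤ (9 / 16 : ℝ)) : CellData DSB (· ≥ ·) xB3 y :=
  cellData_lo (X := xB3) (DS := DSB) DSB_pos oB3_ok hy hf h0 h1 (h3.trans (by norm_num [xB3]))
    (rpB3 hf h0 h1 h2 h3)

theorem rpB4 {y : Fin 4 → ℝ} {r : ℝ} {x : Fin 3 → ℝ} (hf : Face y r x)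
    (h0 : ((13 : ℤ) : ℝ) / 16 ≤ r) (h1 : r ≤ ((16 : ℤ) : ℝ) / 16) (h2 : (1 / 3 : ℝ) ≤ xQ x)
    (h3 : xQ x ≤ (9 / 16 : ℝ)) : Nonempty (Rep (15 * 8) DSB (AA * BB * DSB) cB4 false
      (fe y (Dh DSB cB4 y r))) :=
  rep_nz (c := cB4) (p := 8) DSB_pos RB4_ok SB0_ok rfl RB4_len hf h0 h1 h2 h3

theorem cdB4 {y : Fin 4 → ℝ} (hy : ∑ i, y i = 4) {r : ℝ} {x : Fin 3 → ℝ} (hf : Face y r x)
    (h0 : ((13 : ℤ) : ℝ) / 16 ≤ r) (h1 : r ≤ ((16 : ℤ) : ℝ) / 16) (h2 : (1 / 3 : ℝ) ≤ xQ x)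
    (h3 : xQ x ≤ (9 / 16 : ℝ)) : CellData DSB (· ≥ ·) xB4 y :=
  cellData_lo (X := xB4) (DS := DSB) DSB_pos oB4_ok hy hf h0 h1 (h3.trans (by norm_num [xB4]))
    (rpB4 hf h0 h1 h2 h3)

theorem rpB5 {y : Fin 4 → ℝ} {r : ℝ} {x : Fin 3 → ℝ} (hf : Face y r x)
    (h0 : ((0 : ℤ) : ℝ) / 16 ≤ r) (h1 : r ≤ ((3 : ℤ) : ℝ) / 16) (h2 : (9 / 16 : ℝ) ≤ xQ x)
    (h3 : xQ x ≤ (1 : ℝ)) : Nonempty (Rep (15 * 6) DSB (AA * BB * DSB) cB5 true
      (fe y (Dh DSB cB5 y r))) :=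
  rep_z (c := cB5) (p := 6) (S := SB1) DSB_pos RB0_ok SB1_ok rfl rfl RB0_len (nth_allZ rfl) rfl
    hf h0 h1 h2 h3

theorem cdB5 {y : Fin 4 → ℝ} (hy : ∑ i, y i = 4) {r : ℝ} {x : Fin 3 → ℝ} (hf : Face y r x)
    (h0 : ((0 : ℤ) : ℝ) / 16 ≤ r) (h1 : r ≤ ((3 : ℤ) : ℝ) / 16) (h2 : (9 / 16 : ℝ) ≤ xQ x)
    (h3 : xQ x ≤ (1 : ℝ)) : CellData DSB (· ≥ ·) xB5 y :=
  cellData_lo (X := xB5) (DS := DSB) DSB_pos oB5_ok hy hf h0 h1 (h3.trans (by norm_num [xB5]))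
    (rpB5 hf h0 h1 h2 h3)

theorem rpB6 {y : Fin 4 → ℝ} {r : ℝ} {x : Fin 3 → ℝ} (hf : Face y r x)
    (h0 : ((3 : ℤ) : ℝ) / 16 ≤ r) (h1 : r ≤ ((6 : ℤ) : ℝ) / 16) (h2 : (9 / 16 : ℝ) ≤ xQ x)
    (h3 : xQ x ≤ (1 : ℝ)) : Nonempty (Rep (15 * 8) DSB (AA * BB * DSB) cB6 false
      (fe y (Dh DSB cB6 y r))) :=
  rep_nz (c := cB6) (p := 8) DSB_pos RB1_ok SB1_ok rfl RB1_len hf h0 h1 h2 h3

theorem cdB6 {y : Fin 4 → ℝ} (hy : ∑ i, y i = 4) {r : ℝ} {x : Fin 3 → ℝ} (hf : Face y r x)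
    (h0 : ((3 : ℤ) : ℝ) / 16 ≤ r) (h1 : r ≤ ((6 : ℤ) : ℝ) / 16) (h2 : (9 / 16 : ℝ) ≤ xQ x)
    (h3 : xQ x ≤ (1 : ℝ)) : CellData DSB (· ≥ ·) xB6 y :=
  cellData_lo (X := xB6) (DS := DSB) DSB_pos oB6_ok hy hf h0 h1 (h3.trans (by norm_num [xB6]))
    (rpB6 hf h0 h1 h2 h3)

theorem rpB7 {y : Fin 4 → ℝ} {r : ℝ} {x : Fin 3 → ℝ} (hf : Face y r x)
    (h0 : ((6 : ℤ) : ℝ) / 16 ≤ r) (h1 : r ≤ ((10 : ℤ) : ℝ) / 16) (h2 : (9 / 16 : ℝ) ≤ xQ x)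
    (h3 : xQ x ≤ (1 : ℝ)) : Nonempty (Rep (15 * 8) DSB (AA * BB * DSB) cB7 false
      (fe y (Dh DSB cB7 y r))) :=
  rep_nz (c := cB7) (p := 8) DSB_pos RB2_ok SB1_ok rfl RB2_len hf h0 h1 h2 h3

theorem cdB7 {y : Fin 4 → ℝ} (hy : ∑ i, y i = 4) {r : ℝ} {x : Fin 3 → ℝ} (hf : Face y r x)
    (h0 : ((6 : ℤ) : ℝ) / 16 ≤ r) (h1 : r ≤ ((10 : ℤ) : ℝ) / 16) (h2 : (9 / 16 : ℝ) ≤ xQ x)
    (h3 : xQ x ≤ (1 : ℝ)) : CellData DSB (· ≥ ·) xB7 y :=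
  cellData_lo (X := xB7) (DS := DSB) DSB_pos oB7_ok hy hf h0 h1 (h3.trans (by norm_num [xB7]))
    (rpB7 hf h0 h1 h2 h3)

theorem rpB8 {y : Fin 4 → ℝ} {r : ℝ} {x : Fin 3 → ℝ} (hf : Face y r x)
    (h0 : ((10 : ℤ) : ℝ) / 16 ≤ r) (h1 : r ≤ ((13 : ℤ) : ℝ) / 16) (h2 : (9 / 16 : ℝ) ≤ xQ x)
    (h3 : xQ x ≤ (1 : ℝ)) : Nonempty (Rep (15 * 8) DSB (AA * BB * DSB) cB8 false
      (fe y (Dh DSB cB8 y r))) :=
  rep_nz (c := cB8) (p := 8) DSB_pos RB3_ok SB1_ok rfl RB3_len hf h0 h1 h2 h3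

theorem cdB8 {y : Fin 4 → ℝ} (hy : ∑ i, y i = 4) {r : ℝ} {x : Fin 3 → ℝ} (hf : Face y r x)
    (h0 : ((10 : ℤ) : ℝ) / 16 ≤ r) (h1 : r ≤ ((13 : ℤ) : ℝ) / 16) (h2 : (9 / 16 : ℝ) ≤ xQ x)
    (h3 : xQ x ≤ (1 : ℝ)) : CellData DSB (· ≥ ·) xB8 y :=
  cellData_lo (X := xB8) (DS := DSB) DSB_pos oB8_ok hy hf h0 h1 (h3.trans (by norm_num [xB8]))
    (rpB8 hf h0 h1 h2 h3)

theorem rpB9 {y : Fin 4 → ℝ} {r : ℝ} {x : Fin 3 → ℝ} (hf : Face y r x)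
    (h0 : ((13 : ℤ) : ℝ) / 16 ≤ r) (h1 : r ≤ ((16 : ℤ) : ℝ) / 16) (h2 : (9 / 16 : ℝ) ≤ xQ x)
    (h3 : xQ x ≤ (1 : ℝ)) : Nonempty (Rep (15 * 8) DSB (AA * BB * DSB) cB9 false
      (fe y (Dh DSB cB9 y r))) :=
  rep_nz (c := cB9) (p := 8) DSB_pos RB4_ok SB1_ok rfl RB4_len hf h0 h1 h2 h3

theorem cdB9 {y : Fin 4 → ℝ} (hy : ∑ i, y i = 4) {r : ℝ} {x : Fin 3 → ℝ} (hf : Face y r x)
    (h0 : ((13 : ℤ) : ℝ) / 16 ≤ r) (h1 : r ≤ ((16 : ℤ) : ℝ) / 16) (h2 : (9 / 16 : ℝ) ≤ xQ x)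
    (h3 : xQ x ≤ (1 : ℝ)) : CellData DSB (· ≥ ·) xB9 y :=
  cellData_lo (X := xB9) (DS := DSB) DSB_pos oB9_ok hy hf h0 h1 (h3.trans (by norm_num [xB9]))
    (rpB9 hf h0 h1 h2 h3)

theorem rpB10 {y : Fin 4 → ℝ} {r : ℝ} {x : Fin 3 → ℝ} (hf : Face y r x)
    (h0 : ((0 : ℤ) : ℝ) / 16 ≤ r) (h1 : r ≤ ((3 : ℤ) : ℝ) / 16) (h2 : (1 : ℝ) ≤ xQ x)
    (h3 : xQ x ≤ (3 / 2 : ℝ)) : Nonempty (Rep (15 * 6) DSB (AA * BB * DSB) cB10 true
      (fe y (Dh DSB cB10 y r))) :=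
  rep_z (c := cB10) (p := 6) (S := SB2) DSB_pos RB0_ok SB2_ok rfl rfl RB0_len (nth_allZ rfl) rfl
    hf h0 h1 h2 h3

theorem cdB10 {y : Fin 4 → ℝ} (hy : ∑ i, y i = 4) {r : ℝ} {x : Fin 3 → ℝ} (hf : Face y r x)
    (h0 : ((0 : ℤ) : ℝ) / 16 ≤ r) (h1 : r ≤ ((3 : ℤ) : ℝ) / 16) (h2 : (1 : ℝ) ≤ xQ x)
    (h3 : xQ x ≤ (3 / 2 : ℝ)) : CellData DSB (· ≥ ·) xB10 y :=
  cellData_lo (X := xB10) (DS := DSB) DSB_pos oB10_ok hy hf h0 h1 (h3.trans (by norm_num [xB10]))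
    (rpB10 hf h0 h1 h2 h3)

theorem rpB11 {y : Fin 4 → ℝ} {r : ℝ} {x : Fin 3 → ℝ} (hf : Face y r x)
    (h0 : ((3 : ℤ) : ℝ) / 16 ≤ r) (h1 : r ≤ ((6 : ℤ) : ℝ) / 16) (h2 : (1 : ℝ) ≤ xQ x)
    (h3 : xQ x ≤ (3 / 2 : ℝ)) : Nonempty (Rep (15 * 8) DSB (AA * BB * DSB) cB11 false
      (fe y (Dh DSB cB11 y r))) :=
  rep_nz (c := cB11) (p := 8) DSB_pos RB1_ok SB2_ok rfl RB1_len hf h0 h1 h2 h3

theorem cdB11 {y : Fin 4 → ℝ} (hy : ∑ i, y i = 4) {r : ℝ} {x : Fin 3 → ℝ} (hf : Face y r x)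
    (h0 : ((3 : ℤ) : ℝ) / 16 ≤ r) (h1 : r ≤ ((6 : ℤ) : ℝ) / 16) (h2 : (1 : ℝ) ≤ xQ x)
    (h3 : xQ x ≤ (3 / 2 : ℝ)) : CellData DSB (· ≥ ·) xB11 y :=
  cellData_lo (X := xB11) (DS := DSB) DSB_pos oB11_ok hy hf h0 h1 (h3.trans (by norm_num [xB11]))
    (rpB11 hf h0 h1 h2 h3)

theorem rpB12 {y : Fin 4 → ℝ} {r : ℝ} {x : Fin 3 → ℝ} (hf : Face y r x)
    (h0 : ((6 : ℤ) : ℝ) / 16 ≤ r) (h1 : r ≤ ((10 : ℤ) : ℝ) / 16) (h2 : (1 : ℝ) ≤ xQ x)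
    (h3 : xQ x ≤ (3 / 2 : ℝ)) : Nonempty (Rep (15 * 8) DSB (AA * BB * DSB) cB12 false
      (fe y (Dh DSB cB12 y r))) :=
  rep_nz (c := cB12) (p := 8) DSB_pos RB2_ok SB2_ok rfl RB2_len hf h0 h1 h2 h3

theorem cdB12 {y : Fin 4 → ℝ} (hy : ∑ i, y i = 4) {r : ℝ} {x : Fin 3 → ℝ} (hf : Face y r x)
    (h0 : ((6 : ℤ) : ℝ) / 16 ≤ r) (h1 : r ≤ ((10 : ℤ) : ℝ) / 16) (h2 : (1 : ℝ) ≤ xQ x)
    (h3 : xQ x ≤ (3 / 2 : ℝ)) : CellData DSB (· ≥ ·) xB12 y :=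
  cellData_lo (X := xB12) (DS := DSB) DSB_pos oB12_ok hy hf h0 h1 (h3.trans (by norm_num [xB12]))
    (rpB12 hf h0 h1 h2 h3)

theorem rpB13 {y : Fin 4 → ℝ} {r : ℝ} {x : Fin 3 → ℝ} (hf : Face y r x)
    (h0 : ((10 : ℤ) : ℝ) / 16 ≤ r) (h1 : r ≤ ((13 : ℤ) : ℝ) / 16) (h2 : (1 : ℝ) ≤ xQ x)
    (h3 : xQ x ≤ (3 / 2 : ℝ)) : Nonempty (Rep (15 * 8) DSB (AA * BB * DSB) cB13 false
      (fe y (Dh DSB cB13 y r))) :=
  rep_nz (c := cB13) (p := 8) DSB_pos RB3_ok SB2_ok rfl RB3_len hf h0 h1 h2 h3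

theorem cdB13 {y : Fin 4 → ℝ} (hy : ∑ i, y i = 4) {r : ℝ} {x : Fin 3 → ℝ} (hf : Face y r x)
    (h0 : ((10 : ℤ) : ℝ) / 16 ≤ r) (h1 : r ≤ ((13 : ℤ) : ℝ) / 16) (h2 : (1 : ℝ) ≤ xQ x)
    (h3 : xQ x ≤ (3 / 2 : ℝ)) : CellData DSB (· ≥ ·) xB13 y :=
  cellData_lo (X := xB13) (DS := DSB) DSB_pos oB13_ok hy hf h0 h1 (h3.trans (by norm_num [xB13]))
    (rpB13 hf h0 h1 h2 h3)

theorem rpB14 {y : Fin 4 → ℝ} {r : ℝ} {x : Fin 3 → ℝ} (hf : Face y r x)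
    (h0 : ((13 : ℤ) : ℝ) / 16 ≤ r) (h1 : r ≤ ((16 : ℤ) : ℝ) / 16) (h2 : (1 : ℝ) ≤ xQ x)
    (h3 : xQ x ≤ (3 / 2 : ℝ)) : Nonempty (Rep (15 * 8) DSB (AA * BB * DSB) cB14 false
      (fe y (Dh DSB cB14 y r))) :=
  rep_nz (c := cB14) (p := 8) DSB_pos RB4_ok SB2_ok rfl RB4_len hf h0 h1 h2 h3

theorem cdB14 {y : Fin 4 → ℝ} (hy : ∑ i, y i = 4) {r : ℝ} {x : Fin 3 → ℝ} (hf : Face y r x)
    (h0 : ((13 : ℤ) : ℝ) / 16 ≤ r) (h1 : r ≤ ((16 : ℤ) : ℝ) / 16) (h2 : (1 : ℝ) ≤ xQ x)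
    (h3 : xQ x ≤ (3 / 2 : ℝ)) : CellData DSB (· ≥ ·) xB14 y :=
  cellData_lo (X := xB14) (DS := DSB) DSB_pos oB14_ok hy hf h0 h1 (h3.trans (by norm_num [xB14]))
    (rpB14 hf h0 h1 h2 h3)

theorem rpB15 {y : Fin 4 → ℝ} {r : ℝ} {x : Fin 3 → ℝ} (hf : Face y r x)
    (h0 : ((0 : ℤ) : ℝ) / 16 ≤ r) (h1 : r ≤ ((3 : ℤ) : ℝ) / 16) (h2 : (3 / 2 : ℝ) ≤ xQ x)
    (h3 : xQ x ≤ (9 / 4 : ℝ)) : Nonempty (Rep (15 * 6) DSB (AA * BB * DSB) cB15 true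
      (fe y (Dh DSB cB15 y r))) :=
  rep_z (c := cB15) (p := 6) (S := SB3) DSB_pos RB0_ok SB3_ok rfl rfl RB0_len (nth_allZ rfl) rfl
    hf h0 h1 h2 h3

theorem cdB15 {y : Fin 4 → ℝ} (hy : ∑ i, y i = 4) {r : ℝ} {x : Fin 3 → ℝ} (hf : Face y r x)
    (h0 : ((0 : ℤ) : ℝ) / 16 ≤ r) (h1 : r ≤ ((3 : ℤ) : ℝ) / 16) (h2 : (3 / 2 : ℝ) ≤ xQ x)
    (h3 : xQ x ≤ (9 / 4 : ℝ)) : CellData DSB (· ≥ ·) xB15 y :=
  cellData_lo (X := xB15) (DS := DSB) DSB_pos oB15_ok hy hf h0 h1 (h3.trans (by norm_num [xB15]))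
    (rpB15 hf h0 h1 h2 h3)

theorem rpB16 {y : Fin 4 → ℝ} {r : ℝ} {x : Fin 3 → ℝ} (hf : Face y r x)
    (h0 : ((3 : ℤ) : ℝ) / 16 ≤ r) (h1 : r ≤ ((6 : ℤ) : ℝ) / 16) (h2 : (3 / 2 : ℝ) ≤ xQ x)
    (h3 : xQ x ≤ (9 / 4 : ℝ)) : Nonempty (Rep (15 * 8) DSB (AA * BB * DSB) cB16 false
      (fe y (Dh DSB cB16 y r))) :=
  rep_nz (c := cB16) (p := 8) DSB_pos RB1_ok SB3_ok rfl RB1_len hf h0 h1 h2 h3

theorem cdB16 {y : Fin 4 → ℝ} (hy : ∑ i, y i = 4) {r : ℝ} {x : Fin 3 → ℝ} (hf : Face y r x)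
    (h0 : ((3 : ℤ) : ℝ) / 16 ≤ r) (h1 : r ≤ ((6 : ℤ) : ℝ) / 16) (h2 : (3 / 2 : ℝ) ≤ xQ x)
    (h3 : xQ x ≤ (9 / 4 : ℝ)) : CellData DSB (· ≥ ·) xB16 y :=
  cellData_lo (X := xB16) (DS := DSB) DSB_pos oB16_ok hy hf h0 h1 (h3.trans (by norm_num [xB16]))
    (rpB16 hf h0 h1 h2 h3)

theorem rpB17 {y : Fin 4 → ℝ} {r : ℝ} {x : Fin 3 → ℝ} (hf : Face y r x)
    (h0 : ((6 : ℤ) : ℝ) / 16 ≤ r) (h1 : r ≤ ((10 : ℤ) : ℝ) / 16) (h2 : (3 / 2 : ℝ) ≤ xQ x)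
    (h3 : xQ x ≤ (9 / 4 : ℝ)) : Nonempty (Rep (15 * 8) DSB (AA * BB * DSB) cB17 false
      (fe y (Dh DSB cB17 y r))) :=
  rep_nz (c := cB17) (p := 8) DSB_pos RB2_ok SB3_ok rfl RB2_len hf h0 h1 h2 h3

theorem cdB17 {y : Fin 4 → ℝ} (hy : ∑ i, y i = 4) {r : ℝ} {x : Fin 3 → ℝ} (hf : Face y r x)
    (h0 : ((6 : ℤ) : ℝ) / 16 ≤ r) (h1 : r ≤ ((10 : ℤ) : ℝ) / 16) (h2 : (3 / 2 : ℝ) ≤ xQ x)
    (h3 : xQ x ≤ (9 / 4 : ℝ)) : CellData DSB (· ≥ ·) xB17 y :=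
  cellData_lo (X := xB17) (DS := DSB) DSB_pos oB17_ok hy hf h0 h1 (h3.trans (by norm_num [xB17]))
    (rpB17 hf h0 h1 h2 h3)

theorem rpB18 {y : Fin 4 → ℝ} {r : ℝ} {x : Fin 3 → ℝ} (hf : Face y r x)
    (h0 : ((10 : ℤ) : ℝ) / 16 ≤ r) (h1 : r ≤ ((13 : ℤ) : ℝ) / 16) (h2 : (3 / 2 : ℝ) ≤ xQ x)
    (h3 : xQ x ≤ (9 / 4 : ℝ)) : Nonempty (Rep (15 * 8) DSB (AA * BB * DSB) cB18 false
      (fe y (Dh DSB cB18 y r))) :=
  rep_nz (c := cB18) (p := 8) DSB_pos RB3_ok SB3_ok rfl RB3_len hf h0 h1 h2 h3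

theorem cdB18 {y : Fin 4 → ℝ} (hy : ∑ i, y i = 4) {r : ℝ} {x : Fin 3 → ℝ} (hf : Face y r x)
    (h0 : ((10 : ℤ) : ℝ) / 16 ≤ r) (h1 : r ≤ ((13 : ℤ) : ℝ) / 16) (h2 : (3 / 2 : ℝ) ≤ xQ x)
    (h3 : xQ x ≤ (9 / 4 : ℝ)) : CellData DSB (· ≥ ·) xB18 y :=
  cellData_lo (X := xB18) (DS := DSB) DSB_pos oB18_ok hy hf h0 h1 (h3.trans (by norm_num [xB18]))
    (rpB18 hf h0 h1 h2 h3)

theorem rpB19 {y : Fin 4 → ℝ} {r : ℝ} {x : Fin 3 → ℝ} (hf : Face y r x)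
    (h0 : ((13 : ℤ) : ℝ) / 16 ≤ r) (h1 : r ≤ ((16 : ℤ) : ℝ) / 16) (h2 : (3 / 2 : ℝ) ≤ xQ x)
    (h3 : xQ x ≤ (9 / 4 : ℝ)) : Nonempty (Rep (15 * 8) DSB (AA * BB * DSB) cB19 false
      (fe y (Dh DSB cB19 y r))) :=
  rep_nz (c := cB19) (p := 8) DSB_pos RB4_ok SB3_ok rfl RB4_len hf h0 h1 h2 h3

theorem cdB19 {y : Fin 4 → ℝ} (hy : ∑ i, y i = 4) {r : ℝ} {x : Fin 3 → ℝ} (hf : Face y r x)
    (h0 : ((13 : ℤ) : ℝ) / 16 ≤ r) (h1 : r ≤ ((16 : ℤ) : ℝ) / 16) (h2 : (3 / 2 : ℝ) ≤ xQ x)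
    (h3 : xQ x ≤ (9 / 4 : ℝ)) : CellData DSB (· ≥ ·) xB19 y :=
  cellData_lo (X := xB19) (DS := DSB) DSB_pos oB19_ok hy hf h0 h1 (h3.trans (by norm_num [xB19]))
    (rpB19 hf h0 h1 h2 h3)

theorem rpB20 {y : Fin 4 → ℝ} {r : ℝ} {x : Fin 3 → ℝ} (hf : Face y r x)
    (h0 : ((0 : ℤ) : ℝ) / 16 ≤ r) (h1 : r ≤ ((3 : ℤ) : ℝ) / 16) (h2 : (9 / 4 : ℝ) ≤ xQ x)
    (h3 : xQ x ≤ (3 : ℝ)) : Nonempty (Rep (15 * 6) DSB (AA * BB * DSB) cB20 true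
      (fe y (Dh DSB cB20 y r))) :=
  rep_z (c := cB20) (p := 6) (S := SB4) DSB_pos RB0_ok SB4_ok rfl rfl RB0_len (nth_allZ rfl) rfl
    hf h0 h1 h2 h3

theorem cdB20 {y : Fin 4 → ℝ} (hy : ∑ i, y i = 4) {r : ℝ} {x : Fin 3 → ℝ} (hf : Face y r x)
    (h0 : ((0 : ℤ) : ℝ) / 16 ≤ r) (h1 : r ≤ ((3 : ℤ) : ℝ) / 16) (h2 : (9 / 4 : ℝ) ≤ xQ x)
    (h3 : xQ x ≤ (3 : ℝ)) : CellData DSB (· ≥ ·) xB20 y :=
  cellData_lo (X := xB20) (DS := DSB) DSB_pos oB20_ok hy hf h0 h1 (h3.trans (by norm_num [xB20]))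
    (rpB20 hf h0 h1 h2 h3)

theorem rpB21 {y : Fin 4 → ℝ} {r : ℝ} {x : Fin 3 → ℝ} (hf : Face y r x)
    (h0 : ((3 : ℤ) : ℝ) / 16 ≤ r) (h1 : r ≤ ((6 : ℤ) : ℝ) / 16) (h2 : (9 / 4 : ℝ) ≤ xQ x)
    (h3 : xQ x ≤ (3 : ℝ)) : Nonempty (Rep (15 * 8) DSB (AA * BB * DSB) cB21 false
      (fe y (Dh DSB cB21 y r))) :=
  rep_nz (c := cB21) (p := 8) DSB_pos RB1_ok SB4_ok rfl RB1_len hf h0 h1 h2 h3

theorem cdB21 {y : Fin 4 → ℝ} (hy : ∑ i, y i = 4) {r : ℝ} {x : Fin 3 → ℝ} (hf : Face y r x)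
    (h0 : ((3 : ℤ) : ℝ) / 16 ≤ r) (h1 : r ≤ ((6 : ℤ) : ℝ) / 16) (h2 : (9 / 4 : ℝ) ≤ xQ x)
    (h3 : xQ x ≤ (3 : ℝ)) : CellData DSB (· ≥ ·) xB21 y :=
  cellData_lo (X := xB21) (DS := DSB) DSB_pos oB21_ok hy hf h0 h1 (h3.trans (by norm_num [xB21]))
    (rpB21 hf h0 h1 h2 h3)

theorem rpB22 {y : Fin 4 → ℝ} {r : ℝ} {x : Fin 3 → ℝ} (hf : Face y r x)
    (h0 : ((6 : ℤ) : ℝ) / 16 ≤ r) (h1 : r ≤ ((10 : ℤ) : ℝ) / 16) (h2 : (9 / 4 : ℝ) ≤ xQ x)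
    (h3 : xQ x ≤ (3 : ℝ)) : Nonempty (Rep (15 * 8) DSB (AA * BB * DSB) cB22 false
      (fe y (Dh DSB cB22 y r))) :=
  rep_nz (c := cB22) (p := 8) DSB_pos RB2_ok SB4_ok rfl RB2_len hf h0 h1 h2 h3

theorem cdB22 {y : Fin 4 → ℝ} (hy : ∑ i, y i = 4) {r : ℝ} {x : Fin 3 → ℝ} (hf : Face y r x)
    (h0 : ((6 : ℤ) : ℝ) / 16 ≤ r) (h1 : r ≤ ((10 : ℤ) : ℝ) / 16) (h2 : (9 / 4 : ℝ) ≤ xQ x)
    (h3 : xQ x ≤ (3 : ℝ)) : CellData DSB (· ≥ ·) xB22 y :=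
  cellData_lo (X := xB22) (DS := DSB) DSB_pos oB22_ok hy hf h0 h1 (h3.trans (by norm_num [xB22]))
    (rpB22 hf h0 h1 h2 h3)

theorem rpB23 {y : Fin 4 → ℝ} {r : ℝ} {x : Fin 3 → ℝ} (hf : Face y r x)
    (h0 : ((10 : ℤ) : ℝ) / 16 ≤ r) (h1 : r ≤ ((13 : ℤ) : ℝ) / 16) (h2 : (9 / 4 : ℝ) ≤ xQ x)
    (h3 : xQ x ≤ (3 : ℝ)) : Nonempty (Rep (15 * 8) DSB (AA * BB * DSB) cB23 false
      (fe y (Dh DSB cB23 y r))) :=
  rep_nz (c := cB23) (p := 8) DSB_pos RB3_ok SB4_ok rfl RB3_len hf h0 h1 h2 h3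

theorem cdB23 {y : Fin 4 → ℝ} (hy : ∑ i, y i = 4) {r : ℝ} {x : Fin 3 → ℝ} (hf : Face y r x)
    (h0 : ((10 : ℤ) : ℝ) / 16 ≤ r) (h1 : r ≤ ((13 : ℤ) : ℝ) / 16) (h2 : (9 / 4 : ℝ) ≤ xQ x)
    (h3 : xQ x ≤ (3 : ℝ)) : CellData DSB (· ≥ ·) xB23 y :=
  cellData_lo (X := xB23) (DS := DSB) DSB_pos oB23_ok hy hf h0 h1 (h3.trans (by norm_num [xB23]))
    (rpB23 hf h0 h1 h2 h3)

theorem rpB24 {y : Fin 4 → ℝ} {r : ℝ} {x : Fin 3 → ℝ} (hf : Face y r x)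
    (h0 : ((13 : ℤ) : ℝ) / 16 ≤ r) (h1 : r ≤ ((16 : ℤ) : ℝ) / 16) (h2 : (9 / 4 : ℝ) ≤ xQ x)
    (h3 : xQ x ≤ (3 : ℝ)) : Nonempty (Rep (15 * 8) DSB (AA * BB * DSB) cB24 false
      (fe y (Dh DSB cB24 y r))) :=
  rep_nz (c := cB24) (p := 8) DSB_pos RB4_ok SB4_ok rfl RB4_len hf h0 h1 h2 h3

theorem cdB24 {y : Fin 4 → ℝ} (hy : ∑ i, y i = 4) {r : ℝ} {x : Fin 3 → ℝ} (hf : Face y r x)
    (h0 : ((13 : ℤ) : ℝ) / 16 ≤ r) (h1 : r ≤ ((16 : ℤ) : ℝ) / 16) (h2 : (9 / 4 : ℝ) ≤ xQ x)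
    (h3 : xQ x ≤ (3 : ℝ)) : CellData DSB (· ≥ ·) xB24 y :=
  cellData_lo (X := xB24) (DS := DSB) DSB_pos oB24_ok hy hf h0 h1 (h3.trans (by norm_num [xB24]))
    (rpB24 hf h0 h1 h2 h3)

theorem classB (y : Fin 4 → ℝ) (hy : Nrm y) : ∃ i, i < 25 ∧ CellData DSB (· ≥ ·) (nthCI ciB i) y := by
  obtain ⟨r, x, hf⟩ := exists_face' y hy
  have hQ := xQ_bounds x hf.hs hf.hx
  have hr0 := hf.r0
  have hr1 := hf.r1
  rcases le_total (xQ x) (9 / 16 : ℝ) with hs0 | hs0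
  · rcases le_total r (3 / 16 : ℝ) with hr_0 | hr_0
    · exact ⟨0, by norm_num, cdB0 hy.2 hf (by norm_num; linarith) (by norm_num; linarith) hQ.1 hs0⟩
    · rcases le_total r (3 / 8 : ℝ) with hr_1 | hr_1
      · exact ⟨1, by norm_num, cdB1 hy.2 hf (by norm_num; linarith) (by norm_num; linarith) hQ.1 hs0⟩
      · rcases le_total r (5 / 8 : ℝ) with hr_2 | hr_2
        · exact ⟨2, by norm_num, cdB2 hy.2 hf (by norm_num; linarith) (by norm_num; linarith) hQ.1 hs0⟩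
        · rcases le_total r (13 / 16 : ℝ) with hr_3 | hr_3
          · exact ⟨3, by norm_num, cdB3 hy.2 hf (by norm_num; linarith) (by norm_num; linarith) hQ.1 hs0⟩
          · exact ⟨4, by norm_num, cdB4 hy.2 hf (by norm_num; linarith) (by norm_num; linarith) hQ.1 hs0⟩
  · rcases le_total (xQ x) (1 : ℝ) with hs1 | hs1
    · rcases le_total r (3 / 16 : ℝ) with hr_0 | hr_0
      · exact ⟨5, by norm_num, cdB5 hy.2 hf (by norm_num; linarith) (by norm_num; linarith) hs0 hs1⟩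
      · rcases le_total r (3 / 8 : ℝ) with hr_1 | hr_1
        · exact ⟨6, by norm_num, cdB6 hy.2 hf (by norm_num; linarith) (by norm_num; linarith) hs0 hs1⟩
        · rcases le_total r (5 / 8 : ℝ) with hr_2 | hr_2
          · exact ⟨7, by norm_num, cdB7 hy.2 hf (by norm_num; linarith) (by norm_num; linarith) hs0 hs1⟩
          · rcases le_total r (13 / 16 : ℝ) with hr_3 | hr_3
            · exact ⟨8, by norm_num, cdB8 hy.2 hf (by norm_num; linarith) (by norm_num; linarith) hs0 hs1⟩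
            · exact ⟨9, by norm_num, cdB9 hy.2 hf (by norm_num; linarith) (by norm_num; linarith) hs0 hs1⟩
    · rcases le_total (xQ x) (3 / 2 : ℝ) with hs2 | hs2
      · rcases le_total r (3 / 16 : ℝ) with hr_0 | hr_0
        · exact ⟨10, by norm_num, cdB10 hy.2 hf (by norm_num; linarith) (by norm_num; linarith) hs1 hs2⟩
        · rcases le_total r (3 / 8 : ℝ) with hr_1 | hr_1
          · exact ⟨11, by norm_num, cdB11 hy.2 hf (by norm_num; linarith) (by norm_num; linarith) hs1 hs2⟩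
          · rcases le_total r (5 / 8 : ℝ) with hr_2 | hr_2
            · exact ⟨12, by norm_num, cdB12 hy.2 hf (by norm_num; linarith) (by norm_num; linarith) hs1 hs2⟩
            · rcases le_total r (13 / 16 : ℝ) with hr_3 | hr_3
              · exact ⟨13, by norm_num, cdB13 hy.2 hf (by norm_num; linarith) (by norm_num; linarith) hs1 hs2⟩
              · exact ⟨14, by norm_num, cdB14 hy.2 hf (by norm_num; linarith) (by norm_num; linarith) hs1 hs2⟩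
      · rcases le_total (xQ x) (9 / 4 : ℝ) with hs3 | hs3
        · rcases le_total r (3 / 16 : ℝ) with hr_0 | hr_0
          · exact ⟨15, by norm_num, cdB15 hy.2 hf (by norm_num; linarith) (by norm_num; linarith) hs2 hs3⟩
          · rcases le_total r (3 / 8 : ℝ) with hr_1 | hr_1
            · exact ⟨16, by norm_num, cdB16 hy.2 hf (by norm_num; linarith) (by norm_num; linarith) hs2 hs3⟩
            · rcases le_total r (5 / 8 : ℝ) with hr_2 | hr_2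
              · exact ⟨17, by norm_num, cdB17 hy.2 hf (by norm_num; linarith) (by norm_num; linarith) hs2 hs3⟩
              · rcases le_total r (13 / 16 : ℝ) with hr_3 | hr_3
                · exact ⟨18, by norm_num, cdB18 hy.2 hf (by norm_num; linarith) (by norm_num; linarith) hs2 hs3⟩
                · exact ⟨19, by norm_num, cdB19 hy.2 hf (by norm_num; linarith) (by norm_num; linarith) hs2 hs3⟩
        · rcases le_total r (3 / 16 : ℝ) with hr_0 | hr_0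
          · exact ⟨20, by norm_num, cdB20 hy.2 hf (by norm_num; linarith) (by norm_num; linarith) hs3 hQ.2⟩
          · rcases le_total r (3 / 8 : ℝ) with hr_1 | hr_1
            · exact ⟨21, by norm_num, cdB21 hy.2 hf (by norm_num; linarith) (by norm_num; linarith) hs3 hQ.2⟩
            · rcases le_total r (5 / 8 : ℝ) with hr_2 | hr_2
              · exact ⟨22, by norm_num, cdB22 hy.2 hf (by norm_num; linarith) (by norm_num; linarith) hs3 hQ.2⟩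
              · rcases le_total r (13 / 16 : ℝ) with hr_3 | hr_3
                · exact ⟨23, by norm_num, cdB23 hy.2 hf (by norm_num; linarith) (by norm_num; linarith) hs3 hQ.2⟩
                · exact ⟨24, by norm_num, cdB24 hy.2 hf (by norm_num; linarith) (by norm_num; linarith) hs3 hQ.2⟩

end Vale.Agent.Lib.P154.Q4.Net
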