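import Vale.Agent.Lib.P154.Ineq4.CellsA
import Vale.Agent.Lib.P154.Ineq4.MemA

/-! groups of pairs (A) -/

namespace Vale.Agent.Lib.P154.Q4.Net

def allGrpA (Y : CI) : List (ℕ × ℕ × List ℕ) → Bool
  | [] => true
  | g :: l => match grpChk 288 DSA GA MXTA ciA Y (gaA (nthMCA memA g.1).m) (nthMCA memA g.1).m g.2.1 g.2.2 with
    | true => allGrpA Y l
    | false => false

def gA0 : List (ℕ × ℕ × List ℕ) := [(0, 6, [0])]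
def gA1 : List (ℕ × ℕ × List ℕ) := [(0, 6, [0]),
  (0, 8, [1])]
def gA2 : List (ℕ × ℕ × List ℕ) := [(0, 6, [0]),
  (0, 8, [1, 2])]
def gA3 : List (ℕ × ℕ × List ℕ) := [(0, 6, [0]),
  (0, 8, [1, 2, 3])]
def gA4 : List (ℕ × ℕ × List ℕ) := [(0, 6, [0]),
  (0, 8, [1, 2, 3])]
def gA5 : List (ℕ × ℕ × List ℕ) := [(0, 8, [4])]
def gA6 : List (ℕ × ℕ × List ℕ) := [(0, 6, [0]),
  (0, 8, [1, 2, 3])]
def gA7 : List (ℕ × ℕ × List ℕ) := [(0, 8, [4]),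
  (16, 8, [5])]
def gA8 : List (ℕ × ℕ × List ℕ) := [(0, 6, [0, 6]),
  (0, 8, [1, 2])]
def gA9 : List (ℕ × ℕ × List ℕ) := [(0, 8, [3, 4, 5])]
def gA10 : List (ℕ × ℕ × List ℕ) := [(0, 6, [0, 6]),
  (0, 8, [1, 2])]
def gA11 : List (ℕ × ℕ × List ℕ) := [(0, 8, [3, 4, 5, 7])]
def gA12 : List (ℕ × ℕ × List ℕ) := [(0, 6, [0, 6]),
  (0, 8, [1, 2])]
def gA13 : List (ℕ × ℕ × List ℕ) := [(0, 8, [3, 4, 5, 7])]
def gA14 : List (ℕ × ℕ × List ℕ) := [(0, 8, [8])]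
def gA15 : List (ℕ × ℕ × List ℕ) := [(0, 6, [0, 6]),
  (0, 8, [1, 2])]
def gA16 : List (ℕ × ℕ × List ℕ) := [(0, 8, [3, 4, 5, 7])]
def gA17 : List (ℕ × ℕ × List ℕ) := [(0, 8, [8, 9])]
def gA18 : List (ℕ × ℕ × List ℕ) := [(0, 6, [0, 6]),
  (0, 8, [1, 2])]
def gA19 : List (ℕ × ℕ × List ℕ) := [(0, 8, [3, 4, 5, 7])]
def gA20 : List (ℕ × ℕ × List ℕ) := [(0, 8, [8, 9, 10])]
def gA21 : List (ℕ × ℕ × List ℕ) := [(0, 6, [0, 6]),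
  (0, 8, [1, 2])]
def gA22 : List (ℕ × ℕ × List ℕ) := [(0, 8, [3, 4, 7, 8])]
def gA23 : List (ℕ × ℕ × List ℕ) := [(0, 8, [9, 10]),
  (3, 8, [5, 11])]
def gA24 : List (ℕ × ℕ × List ℕ) := [(0, 6, [0, 6, 12]),
  (0, 8, [1])]
def gA25 : List (ℕ × ℕ × List ℕ) := [(0, 8, [2, 3, 4, 5])]
def gA26 : List (ℕ × ℕ × List ℕ) := [(0, 8, [7, 8, 9, 10])]
def gA27 : List (ℕ × ℕ × List ℕ) := [(0, 8, [11])]
def gA28 : List (ℕ × ℕ × List ℕ) := [(0, 6, [0, 6, 12]),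
  (0, 8, [1])]
def gA29 : List (ℕ × ℕ × List ℕ) := [(0, 8, [2, 3, 4, 5])]
def gA30 : List (ℕ × ℕ × List ℕ) := [(0, 8, [7, 8, 9, 10])]
def gA31 : List (ℕ × ℕ × List ℕ) := [(0, 8, [11, 13])]
def gA32 : List (ℕ × ℕ × List ℕ) := [(0, 6, [0, 6, 12]),
  (0, 8, [1])]
def gA33 : List (ℕ × ℕ × List ℕ) := [(0, 8, [2, 3, 4, 5])]
def gA34 : List (ℕ × ℕ × List ℕ) := [(0, 8, [7, 8, 9, 10])]
def gA35 : List (ℕ × ℕ × List ℕ) := [(0, 8, [11, 13, 14])]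
def gA36 : List (ℕ × ℕ × List ℕ) := [(0, 6, [0, 6, 12]),
  (0, 8, [1])]
def gA37 : List (ℕ × ℕ × List ℕ) := [(0, 8, [2, 3, 4, 5])]
def gA38 : List (ℕ × ℕ × List ℕ) := [(0, 8, [7, 8, 9, 10])]
def gA39 : List (ℕ × ℕ × List ℕ) := [(0, 8, [11, 13, 14, 15])]
def gA40 : List (ℕ × ℕ × List ℕ) := [(0, 6, [0, 6, 12]),
  (0, 8, [1])]
def gA41 : List (ℕ × ℕ × List ℕ) := [(0, 8, [2, 3, 4, 5])]
def gA42 : List (ℕ × ℕ × List ℕ) := [(0, 8, [7, 8, 9, 10])]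
def gA43 : List (ℕ × ℕ × List ℕ) := [(0, 8, [11, 13, 14, 15])]
def gA44 : List (ℕ × ℕ × List ℕ) := [(0, 8, [16])]
def gA45 : List (ℕ × ℕ × List ℕ) := [(0, 6, [0, 6, 12]),
  (0, 8, [1])]
def gA46 : List (ℕ × ℕ × List ℕ) := [(0, 8, [2, 3, 4, 7])]
def gA47 : List (ℕ × ℕ × List ℕ) := [(0, 8, [8, 9, 10, 13])]
def gA48 : List (ℕ × ℕ × List ℕ) := [(0, 8, [14, 15, 16]),
  (3, 8, [5])]
def gA49 : List (ℕ × ℕ × List ℕ) := [(12, 8, [11]),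
  (20, 8, [17])]
def gA50 : List (ℕ × ℕ × List ℕ) := [(0, 6, [0, 6, 12, 18])]
def gA51 : List (ℕ × ℕ × List ℕ) := [(0, 8, [1, 2, 3, 4])]
def gA52 : List (ℕ × ℕ × List ℕ) := [(0, 8, [5, 7, 8, 9])]
def gA53 : List (ℕ × ℕ × List ℕ) := [(0, 8, [10, 11, 13, 14])]
def gA54 : List (ℕ × ℕ × List ℕ) := [(0, 8, [15, 16, 17])]
def gA55 : List (ℕ × ℕ × List ℕ) := [(0, 6, [0, 6, 12, 18])]
def gA56 : List (ℕ × ℕ × List ℕ) := [(0, 8, [1, 2, 3, 4])]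
def gA57 : List (ℕ × ℕ × List ℕ) := [(0, 8, [5, 7, 8, 9])]
def gA58 : List (ℕ × ℕ × List ℕ) := [(0, 8, [10, 11, 13, 14])]
def gA59 : List (ℕ × ℕ × List ℕ) := [(0, 8, [15, 16, 17, 19])]
def gA60 : List (ℕ × ℕ × List ℕ) := [(0, 6, [0, 6, 12, 18])]
def gA61 : List (ℕ × ℕ × List ℕ) := [(0, 8, [1, 2, 3, 4])]
def gA62 : List (ℕ × ℕ × List ℕ) := [(0, 8, [5, 7, 8, 9])]
def gA63 : List (ℕ × ℕ × List ℕ) := [(0, 8, [10, 11, 13, 14])]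
def gA64 : List (ℕ × ℕ × List ℕ) := [(0, 8, [15, 16, 17, 19])]
def gA65 : List (ℕ × ℕ × List ℕ) := [(0, 8, [20])]
def gA66 : List (ℕ × ℕ × List ℕ) := [(0, 6, [0, 6, 12, 18])]
def gA67 : List (ℕ × ℕ × List ℕ) := [(0, 8, [1, 2, 3, 4])]
def gA68 : List (ℕ × ℕ × List ℕ) := [(0, 8, [5, 7, 8, 9])]
def gA69 : List (ℕ × ℕ × List ℕ) := [(0, 8, [10, 11, 13, 14])]
def gA70 : List (ℕ × ℕ × List ℕ) := [(0, 8, [15, 16, 17, 19])]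
def gA71 : List (ℕ × ℕ × List ℕ) := [(0, 8, [20, 21])]
def gA72 : List (ℕ × ℕ × List ℕ) := [(0, 6, [0, 6, 12, 18])]
def gA73 : List (ℕ × ℕ × List ℕ) := [(0, 8, [1, 2, 3, 4])]
def gA74 : List (ℕ × ℕ × List ℕ) := [(0, 8, [5, 7, 8, 9])]
def gA75 : List (ℕ × ℕ × List ℕ) := [(0, 8, [10, 11, 13, 14])]
def gA76 : List (ℕ × ℕ × List ℕ) := [(0, 8, [15, 16, 17, 19])]
def gA77 : List (ℕ × ℕ × List ℕ) := [(0, 8, [20, 21, 22])]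
def gA78 : List (ℕ × ℕ × List ℕ) := [(0, 6, [0, 6, 12, 18])]
def gA79 : List (ℕ × ℕ × List ℕ) := [(0, 8, [1, 2, 3, 4])]
def gA80 : List (ℕ × ℕ × List ℕ) := [(0, 8, [7, 8, 9, 10])]
def gA81 : List (ℕ × ℕ × List ℕ) := [(0, 8, [13, 14, 15, 16])]
def gA82 : List (ℕ × ℕ × List ℕ) := [(0, 8, [21, 22]),
  (1, 8, [19, 20])]
def gA83 : List (ℕ × ℕ × List ℕ) := [(6, 8, [11]),
  (13, 8, [5]),
  (26, 8, [17]),
  (33, 8, [23])]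
def gA84 : List (ℕ × ℕ × List ℕ) := [(0, 6, [0, 6, 12, 18])]
def gA85 : List (ℕ × ℕ × List ℕ) := [(0, 6, [24]),
  (0, 8, [1, 2, 3])]
def gA86 : List (ℕ × ℕ × List ℕ) := [(0, 8, [4, 5, 7, 8])]
def gA87 : List (ℕ × ℕ × List ℕ) := [(0, 8, [9, 10, 11, 13])]
def gA88 : List (ℕ × ℕ × List ℕ) := [(0, 8, [14, 15, 16, 17])]
def gA89 : List (ℕ × ℕ × List ℕ) := [(0, 8, [19, 20, 21, 22])]
def gA90 : List (ℕ × ℕ × List ℕ) := [(0, 8, [23])]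
def gA91 : List (ℕ × ℕ × List ℕ) := [(0, 6, [0, 6, 12, 18])]
def gA92 : List (ℕ × ℕ × List ℕ) := [(0, 6, [24]),
  (0, 8, [1, 2, 3])]
def gA93 : List (ℕ × ℕ × List ℕ) := [(0, 8, [4, 5, 7, 8])]
def gA94 : List (ℕ × ℕ × List ℕ) := [(0, 8, [9, 10, 11, 13])]
def gA95 : List (ℕ × ℕ × List ℕ) := [(0, 8, [14, 15, 16, 19])]
def gA96 : List (ℕ × ℕ × List ℕ) := [(0, 8, [20, 21, 22, 25])]
def gA97 : List (ℕ × ℕ × List ℕ) := [(1, 8, [17, 23])]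
def gA98 : List (ℕ × ℕ × List ℕ) := [(0, 6, [0, 6, 12, 18])]
def gA99 : List (ℕ × ℕ × List ℕ) := [(0, 6, [24]),
  (0, 8, [1, 2, 3])]
def gA100 : List (ℕ × ℕ × List ℕ) := [(0, 8, [4, 5, 7, 8])]
def gA101 : List (ℕ × ℕ × List ℕ) := [(0, 8, [9, 10, 11, 13])]
def gA102 : List (ℕ × ℕ × List ℕ) := [(0, 8, [14, 15, 16, 19])]
def gA103 : List (ℕ × ℕ × List ℕ) := [(0, 8, [20, 21, 22, 25])]
def gA104 : List (ℕ × ℕ × List ℕ) := [(0, 8, [26]),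
  (1, 8, [17, 23])]
def gA105 : List (ℕ × ℕ × List ℕ) := [(0, 6, [0, 6, 12, 18])]
def gA106 : List (ℕ × ℕ × List ℕ) := [(0, 6, [24]),
  (0, 8, [1, 2, 3])]
def gA107 : List (ℕ × ℕ × List ℕ) := [(0, 8, [4, 5, 7, 8])]
def gA108 : List (ℕ × ℕ × List ℕ) := [(0, 8, [9, 10, 11, 13])]
def gA109 : List (ℕ × ℕ × List ℕ) := [(0, 8, [14, 15, 16, 17])]
def gA110 : List (ℕ × ℕ × List ℕ) := [(0, 8, [19, 20, 21, 22])]
def gA111 : List (ℕ × ℕ × List ℕ) := [(0, 8, [23, 25, 26, 27])]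
def gA112 : List (ℕ × ℕ × List ℕ) := [(0, 6, [0, 6, 12, 18])]
def gA113 : List (ℕ × ℕ × List ℕ) := [(0, 6, [24]),
  (0, 8, [1, 2, 3])]
def gA114 : List (ℕ × ℕ × List ℕ) := [(0, 8, [4, 5, 7, 8])]
def gA115 : List (ℕ × ℕ × List ℕ) := [(0, 8, [9, 10, 11, 13])]
def gA116 : List (ℕ × ℕ × List ℕ) := [(0, 8, [14, 15, 16, 17])]
def gA117 : List (ℕ × ℕ × List ℕ) := [(0, 8, [19, 20, 21, 22])]
def gA118 : List (ℕ × ℕ × List ℕ) := [(0, 8, [23, 25, 26, 27])]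
def gA119 : List (ℕ × ℕ × List ℕ) := [(0, 8, [28])]
def gA120 : List (ℕ × ℕ × List ℕ) := [(0, 6, [0, 6, 12, 18])]
def gA121 : List (ℕ × ℕ × List ℕ) := [(0, 6, [24]),
  (0, 8, [1, 2, 3])]
def gA122 : List (ℕ × ℕ × List ℕ) := [(0, 8, [4, 7, 8, 9])]
def gA123 : List (ℕ × ℕ × List ℕ) := [(0, 8, [10, 13, 14, 15])]
def gA124 : List (ℕ × ℕ × List ℕ) := [(0, 8, [16, 19, 20, 21])]
def gA125 : List (ℕ × ℕ × List ℕ) := [(0, 8, [22, 27, 28]),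
  (1, 8, [25])]
def gA126 : List (ℕ × ℕ × List ℕ) := [(1, 8, [26]),
  (9, 8, [11]),
  (11, 8, [5]),
  (30, 8, [29])]
def gA127 : List (ℕ × ℕ × List ℕ) := [(33, 8, [17]),
  (40, 8, [23])]
def gA128 : List (ℕ × ℕ × List ℕ) := [(0, 6, [0, 6, 12, 18])]
def gA129 : List (ℕ × ℕ × List ℕ) := [(0, 6, [24, 30]),
  (0, 8, [1, 2])]
def gA130 : List (ℕ × ℕ × List ℕ) := [(0, 8, [3, 4, 5, 7])]
def gA131 : List (ℕ × ℕ × List ℕ) := [(0, 8, [8, 9, 10, 11])]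
def gA132 : List (ℕ × ℕ × List ℕ) := [(0, 8, [13, 14, 15, 16])]
def gA133 : List (ℕ × ℕ × List ℕ) := [(0, 8, [19, 20, 21, 22])]
def gA134 : List (ℕ × ℕ × List ℕ) := [(0, 8, [25, 26, 27, 28])]
def gA135 : List (ℕ × ℕ × List ℕ) := [(0, 8, [29]),
  (1, 8, [23]),
  (3, 8, [17])]
def gA136 : List (ℕ × ℕ × List ℕ) := [(0, 6, [0, 6, 12, 18])]
def gA137 : List (ℕ × ℕ × List ℕ) := [(0, 6, [24, 30]),
  (0, 8, [1, 2])]
def gA138 : List (ℕ × ℕ × List ℕ) := [(0, 8, [3, 4, 5, 7])]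
def gA139 : List (ℕ × ℕ × List ℕ) := [(0, 8, [8, 9, 10, 13])]
def gA140 : List (ℕ × ℕ × List ℕ) := [(0, 8, [14, 15, 16, 19])]
def gA141 : List (ℕ × ℕ × List ℕ) := [(0, 8, [20, 21, 22, 25])]
def gA142 : List (ℕ × ℕ × List ℕ) := [(0, 8, [26, 27, 28, 31])]
def gA143 : List (ℕ × ℕ × List ℕ) := [(1, 8, [11, 23, 29]),
  (17, 8, [17])]
def gA144 : List (ℕ × ℕ × List ℕ) := [(0, 6, [0, 6, 12, 18])]
def gA145 : List (ℕ × ℕ × List ℕ) := [(0, 6, [24, 30]),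
  (0, 8, [1, 2])]
def gA146 : List (ℕ × ℕ × List ℕ) := [(0, 8, [3, 4, 5, 7])]
def gA147 : List (ℕ × ℕ × List ℕ) := [(0, 8, [8, 9, 10, 11])]
def gA148 : List (ℕ × ℕ × List ℕ) := [(0, 8, [13, 14, 15, 16])]
def gA149 : List (ℕ × ℕ × List ℕ) := [(0, 8, [19, 20, 21, 22])]
def gA150 : List (ℕ × ℕ × List ℕ) := [(0, 8, [25, 26, 27, 28])]
def gA151 : List (ℕ × ℕ × List ℕ) := [(0, 8, [31, 32]),
  (1, 8, [17]),
  (2, 8, [23])]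
def gA152 : List (ℕ × ℕ × List ℕ) := [(4, 8, [29])]
def gA153 : List (ℕ × ℕ × List ℕ) := [(0, 6, [0, 6, 12, 18])]
def gA154 : List (ℕ × ℕ × List ℕ) := [(0, 6, [24, 30]),
  (0, 8, [1, 2])]
def gA155 : List (ℕ × ℕ × List ℕ) := [(0, 8, [3, 4, 5, 7])]
def gA156 : List (ℕ × ℕ × List ℕ) := [(0, 8, [8, 9, 10, 11])]
def gA157 : List (ℕ × ℕ × List ℕ) := [(0, 8, [13, 14, 15, 16])]
def gA158 : List (ℕ × ℕ × List ℕ) := [(0, 8, [17, 19, 20, 21])]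
def gA159 : List (ℕ × ℕ × List ℕ) := [(0, 8, [22, 23, 25, 26])]
def gA160 : List (ℕ × ℕ × List ℕ) := [(0, 8, [27, 28, 29, 31])]
def gA161 : List (ℕ × ℕ × List ℕ) := [(0, 8, [32, 33])]
def gA162 : List (ℕ × ℕ × List ℕ) := [(0, 6, [0, 6, 12, 18])]
def gA163 : List (ℕ × ℕ × List ℕ) := [(0, 6, [24, 30]),
  (0, 8, [1, 2])]
def gA164 : List (ℕ × ℕ × List ℕ) := [(0, 8, [3, 4, 5, 7])]
def gA165 : List (ℕ × ℕ × List ℕ) := [(0, 8, [8, 9, 10, 11])]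
def gA166 : List (ℕ × ℕ × List ℕ) := [(0, 8, [13, 14, 15, 16])]
def gA167 : List (ℕ × ℕ × List ℕ) := [(0, 8, [17, 19, 20, 21])]
def gA168 : List (ℕ × ℕ × List ℕ) := [(0, 8, [22, 25, 26, 27])]
def gA169 : List (ℕ × ℕ × List ℕ) := [(0, 8, [28, 31, 32]),
  (2, 8, [23])]
def gA170 : List (ℕ × ℕ × List ℕ) := [(2, 8, [33, 34]),
  (4, 8, [29])]
def gA171 : List (ℕ × ℕ × List ℕ) := [(0, 6, [6, 12, 18, 24])]
def gA172 : List (ℕ × ℕ × List ℕ) := [(0, 6, [30]),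
  (0, 8, [3, 4, 27])]
def gA173 : List (ℕ × ℕ × List ℕ) := [(1, 6, [0]),
  (1, 8, [7, 8, 9])]
def gA174 : List (ℕ × ℕ × List ℕ) := [(1, 8, [10, 11, 13, 14])]
def gA175 : List (ℕ × ℕ × List ℕ) := [(1, 8, [15, 19, 25]),
  (3, 8, [1])]
def gA176 : List (ℕ × ℕ × List ℕ) := [(3, 8, [2]),
  (4, 8, [16, 22]),
  (6, 8, [5])]
def gA177 : List (ℕ × ℕ × List ℕ) := [(7, 8, [21, 31]),
  (8, 8, [28]),
  (10, 8, [17])]
def gA178 : List (ℕ × ℕ × List ℕ) := [(10, 8, [23]),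
  (14, 8, [20]),
  (18, 8, [26]),
  (21, 8, [32])]
def gA179 : List (ℕ × ℕ × List ℕ) := [(29, 8, [33]),
  (30, 8, [29, 34]),
  (39, 8, [35])]
def gA180 : List (ℕ × ℕ × List ℕ) := [(0, 6, [0, 6, 12, 18])]
def gA181 : List (ℕ × ℕ × List ℕ) := [(0, 6, [24, 30, 36]),
  (0, 8, [1])]
def gA182 : List (ℕ × ℕ × List ℕ) := [(0, 8, [2, 3, 4, 5])]
def gA183 : List (ℕ × ℕ × List ℕ) := [(0, 8, [7, 8, 9, 10])]
def gA184 : List (ℕ × ℕ × List ℕ) := [(0, 8, [11, 13, 14, 15])]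
def gA185 : List (ℕ × ℕ × List ℕ) := [(0, 8, [16, 19, 20, 21])]
def gA186 : List (ℕ × ℕ × List ℕ) := [(0, 8, [22, 25, 26, 27])]
def gA187 : List (ℕ × ℕ × List ℕ) := [(0, 8, [28, 31, 32, 33])]
def gA188 : List (ℕ × ℕ × List ℕ) := [(0, 8, [34]),
  (1, 8, [29, 35]),
  (3, 8, [17])]
def gA189 : List (ℕ × ℕ × List ℕ) := [(3, 8, [23])]
def gA190 : List (ℕ × ℕ × List ℕ) := [(0, 6, [0, 6, 12, 18])]
def gA191 : List (ℕ × ℕ × List ℕ) := [(0, 6, [24, 30, 36]),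
  (0, 8, [1])]
def gA192 : List (ℕ × ℕ × List ℕ) := [(0, 8, [2, 3, 4, 5])]
def gA193 : List (ℕ × ℕ × List ℕ) := [(0, 8, [7, 8, 9, 10])]
def gA194 : List (ℕ × ℕ × List ℕ) := [(0, 8, [13, 14, 15, 16])]
def gA195 : List (ℕ × ℕ × List ℕ) := [(0, 8, [19, 20, 21, 22])]
def gA196 : List (ℕ × ℕ × List ℕ) := [(0, 8, [25, 26, 27, 28])]
def gA197 : List (ℕ × ℕ × List ℕ) := [(0, 8, [31, 32, 33, 34])]
def gA198 : List (ℕ × ℕ × List ℕ) := [(0, 8, [37]),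
  (1, 8, [11]),
  (4, 8, [29]),
  (17, 8, [17])]
def gA199 : List (ℕ × ℕ × List ℕ) := [(18, 8, [35]),
  (24, 8, [23])]
def gA200 : List (ℕ × ℕ × List ℕ) := [(0, 6, [0, 6, 12, 18])]
def gA201 : List (ℕ × ℕ × List ℕ) := [(0, 6, [24, 30, 36]),
  (0, 8, [1])]
def gA202 : List (ℕ × ℕ × List ℕ) := [(0, 8, [2, 3, 4, 5])]
def gA203 : List (ℕ × ℕ × List ℕ) := [(0, 8, [7, 8, 9, 10])]
def gA204 : List (ℕ × ℕ × List ℕ) := [(0, 8, [11, 13, 14, 15])]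
def gA205 : List (ℕ × ℕ × List ℕ) := [(0, 8, [16, 19, 20, 21])]
def gA206 : List (ℕ × ℕ × List ℕ) := [(0, 8, [22, 25, 26, 27])]
def gA207 : List (ℕ × ℕ × List ℕ) := [(0, 8, [28, 31, 32, 37])]
def gA208 : List (ℕ × ℕ × List ℕ) := [(2, 8, [17, 23, 33, 34])]
def gA209 : List (ℕ × ℕ × List ℕ) := [(2, 8, [38]),
  (4, 8, [29]),
  (30, 8, [35])]
def gA210 : List (ℕ × ℕ × List ℕ) := [(0, 6, [0, 6, 12, 18])]
def gA211 : List (ℕ × ℕ × List ℕ) := [(0, 6, [24, 30, 36]),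
  (0, 8, [1])]
def gA212 : List (ℕ × ℕ × List ℕ) := [(0, 8, [2, 3, 4, 5])]
def gA213 : List (ℕ × ℕ × List ℕ) := [(0, 8, [7, 8, 9, 10])]
def gA214 : List (ℕ × ℕ × List ℕ) := [(0, 8, [11, 13, 14, 15])]
def gA215 : List (ℕ × ℕ × List ℕ) := [(0, 8, [16, 17, 19, 20])]
def gA216 : List (ℕ × ℕ × List ℕ) := [(0, 8, [21, 22, 25, 26])]
def gA217 : List (ℕ × ℕ × List ℕ) := [(0, 8, [27, 31, 37]),
  (2, 8, [23])]
def gA218 : List (ℕ × ℕ × List ℕ) := [(2, 8, [28, 29, 32, 33])]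
def gA219 : List (ℕ × ℕ × List ℕ) := [(2, 8, [34, 38]),
  (5, 8, [39]),
  (35, 8, [35])]
def gA220 : List (ℕ × ℕ × List ℕ) := [(0, 6, [0, 6, 12, 18])]
def gA221 : List (ℕ × ℕ × List ℕ) := [(0, 6, [24, 30, 36]),
  (0, 8, [1])]
def gA222 : List (ℕ × ℕ × List ℕ) := [(0, 8, [2, 3, 4, 5])]
def gA223 : List (ℕ × ℕ × List ℕ) := [(0, 8, [7, 8, 9, 10])]
def gA224 : List (ℕ × ℕ × List ℕ) := [(0, 8, [11, 13, 14, 15])]
def gA225 : List (ℕ × ℕ × List ℕ) := [(0, 8, [16, 19, 20, 21])]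
def gA226 : List (ℕ × ℕ × List ℕ) := [(0, 8, [22, 25, 26, 31])]
def gA227 : List (ℕ × ℕ × List ℕ) := [(0, 8, [37]),
  (2, 8, [23, 27, 28])]
def gA228 : List (ℕ × ℕ × List ℕ) := [(2, 8, [29, 32, 33]),
  (4, 8, [17])]
def gA229 : List (ℕ × ℕ × List ℕ) := [(5, 8, [34, 38, 39, 40])]
def gA230 : List (ℕ × ℕ × List ℕ) := [(27, 8, [35])]
def gA231 : List (ℕ × ℕ × List ℕ) := [(0, 6, [6, 12, 18, 24])]
def gA232 : List (ℕ × ℕ × List ℕ) := [(0, 6, [30]),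
  (1, 6, [36]),
  (3, 6, [0]),
  (3, 8, [1])]
def gA233 : List (ℕ × ℕ × List ℕ) := [(6, 8, [7, 13]),
  (9, 8, [5, 8])]
def gA234 : List (ℕ × ℕ × List ℕ) := [(15, 8, [11]),
  (18, 8, [9, 15, 21])]
def gA235 : List (ℕ × ℕ × List ℕ) := [(18, 8, [31]),
  (19, 8, [22]),
  (21, 8, [27, 37])]
def gA236 : List (ℕ × ℕ × List ℕ) := [(22, 8, [26]),
  (23, 8, [14, 20]),
  (24, 8, [19])]
def gA237 : List (ℕ × ℕ × List ℕ) := [(25, 8, [23]),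
  (27, 8, [35, 40, 41])]
def gA238 : List (ℕ × ℕ × List ℕ) := [(28, 8, [3]),
  (29, 8, [28]),
  (30, 8, [29]),
  (31, 8, [10])]
def gA239 : List (ℕ × ℕ × List ℕ) := [(31, 8, [16, 17]),
  (32, 8, [2]),
  (34, 8, [32])]
def gA240 : List (ℕ × ℕ × List ℕ) := [(35, 8, [33]),
  (36, 8, [4]),
  (37, 8, [34]),
  (38, 8, [38])]
def gA241 : List (ℕ × ℕ × List ℕ) := [(41, 8, [39]),
  (42, 8, [25])]

/-- all chunks: first cell, groups of second cells -/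
def gsA : List (ℕ × List (ℕ × ℕ × List ℕ)) := [(0, gA0),
  (1, gA1),
  (2, gA2),
  (3, gA3),
  (4, gA4),
  (4, gA5),
  (5, gA6),
  (5, gA7),
  (6, gA8),
  (6, gA9),
  (7, gA10),
  (7, gA11),
  (8, gA12),
  (8, gA13),
  (8, gA14),
  (9, gA15),
  (9, gA16),
  (9, gA17),
  (10, gA18),
  (10, gA19),
  (10, gA20),
  (11, gA21),
  (11, gA22),
  (11, gA23),
  (12, gA24),
  (12, gA25),
  (12, gA26),
  (12, gA27),
  (13, gA28),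
  (13, gA29),
  (13, gA30),
  (13, gA31),
  (14, gA32),
  (14, gA33),
  (14, gA34),
  (14, gA35),
  (15, gA36),
  (15, gA37),
  (15, gA38),
  (15, gA39),
  (16, gA40),
  (16, gA41),
  (16, gA42),
  (16, gA43),
  (16, gA44),
  (17, gA45),
  (17, gA46),
  (17, gA47),
  (17, gA48),
  (17, gA49),
  (18, gA50),
  (18, gA51),
  (18, gA52),
  (18, gA53),
  (18, gA54),
  (19, gA55),
  (19, gA56),
  (19, gA57),
  (19, gA58),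
  (19, gA59),
  (20, gA60),
  (20, gA61),
  (20, gA62),
  (20, gA63),
  (20, gA64),
  (20, gA65),
  (21, gA66),
  (21, gA67),
  (21, gA68),
  (21, gA69),
  (21, gA70),
  (21, gA71),
  (22, gA72),
  (22, gA73),
  (22, gA74),
  (22, gA75),
  (22, gA76),
  (22, gA77),
  (23, gA78),
  (23, gA79),
  (23, gA80),
  (23, gA81),
  (23, gA82),
  (23, gA83),
  (24, gA84),
  (24, gA85),
  (24, gA86),
  (24, gA87),
  (24, gA88),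
  (24, gA89),
  (24, gA90),
  (25, gA91),
  (25, gA92),
  (25, gA93),
  (25, gA94),
  (25, gA95),
  (25, gA96),
  (25, gA97),
  (26, gA98),
  (26, gA99),
  (26, gA100),
  (26, gA101),
  (26, gA102),
  (26, gA103),
  (26, gA104),
  (27, gA105),
  (27, gA106),
  (27, gA107),
  (27, gA108),
  (27, gA109),
  (27, gA110),
  (27, gA111),
  (28, gA112),
  (28, gA113),
  (28, gA114),
  (28, gA115),
  (28, gA116),
  (28, gA117),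
  (28, gA118),
  (28, gA119),
  (29, gA120),
  (29, gA121),
  (29, gA122),
  (29, gA123),
  (29, gA124),
  (29, gA125),
  (29, gA126),
  (29, gA127),
  (30, gA128),
  (30, gA129),
  (30, gA130),
  (30, gA131),
  (30, gA132),
  (30, gA133),
  (30, gA134),
  (30, gA135),
  (31, gA136),
  (31, gA137),
  (31, gA138),
  (31, gA139),
  (31, gA140),
  (31, gA141),
  (31, gA142),
  (31, gA143),
  (32, gA144),
  (32, gA145),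
  (32, gA146),
  (32, gA147),
  (32, gA148),
  (32, gA149),
  (32, gA150),
  (32, gA151),
  (32, gA152),
  (33, gA153),
  (33, gA154),
  (33, gA155),
  (33, gA156),
  (33, gA157),
  (33, gA158),
  (33, gA159),
  (33, gA160),
  (33, gA161),
  (34, gA162),
  (34, gA163),
  (34, gA164),
  (34, gA165),
  (34, gA166),
  (34, gA167),
  (34, gA168),
  (34, gA169),
  (34, gA170),
  (35, gA171),
  (35, gA172),
  (35, gA173),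
  (35, gA174),
  (35, gA175),
  (35, gA176),
  (35, gA177),
  (35, gA178),
  (35, gA179),
  (36, gA180),
  (36, gA181),
  (36, gA182),
  (36, gA183),
  (36, gA184),
  (36, gA185),
  (36, gA186),
  (36, gA187),
  (36, gA188),
  (36, gA189),
  (37, gA190),
  (37, gA191),
  (37, gA192),
  (37, gA193),
  (37, gA194),
  (37, gA195),
  (37, gA196),
  (37, gA197),
  (37, gA198),
  (37, gA199),
  (38, gA200),
  (38, gA201),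
  (38, gA202),
  (38, gA203),
  (38, gA204),
  (38, gA205),
  (38, gA206),
  (38, gA207),
  (38, gA208),
  (38, gA209),
  (39, gA210),
  (39, gA211),
  (39, gA212),
  (39, gA213),
  (39, gA214),
  (39, gA215),
  (39, gA216),
  (39, gA217),
  (39, gA218),
  (39, gA219),
  (40, gA220),
  (40, gA221),
  (40, gA222),
  (40, gA223),
  (40, gA224),
  (40, gA225),
  (40, gA226),
  (40, gA227),
  (40, gA228),
  (40, gA229),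
  (40, gA230),
  (41, gA231),
  (41, gA232),
  (41, gA233),
  (41, gA234),
  (41, gA235),
  (41, gA236),
  (41, gA237),
  (41, gA238),
  (41, gA239),
  (41, gA240),
  (41, gA241)]

end Vale.Agent.Lib.P154.Q4.Net
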