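import Vale.Agent.Lib.P154.Ineq4.CellsB
import Vale.Agent.Lib.P154.Ineq4.MemB

/-! groups of pairs (B) -/

namespace Vale.Agent.Lib.P154.Q4.Net

def allGrpB (Y : CI) : List (ℕ × ℕ × (ℕ × ℕ × ℕ × ℕ) × List ℕ) → Bool
  | [] => true
  | g :: l => match grpChk 288 DSB GB MXTB ciB Y (gaB (nthMCB memB g.1).m g.2.2.1.1 g.2.2.1.2.1
      g.2.2.1.2.2.1 g.2.2.1.2.2.2) (nthMCB memB g.1).m g.2.1 g.2.2.2 with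
    | true => allGrpB Y l
    | false => false

def gB0 : List (ℕ × ℕ × (ℕ × ℕ × ℕ × ℕ) × List ℕ) := [(0, 6, (1, 1, 1, 0), [0])]
def gB1 : List (ℕ × ℕ × (ℕ × ℕ × ℕ × ℕ) × List ℕ) := [(0, 6, (0, 0, 0, 0), [0]),
  (0, 8, (0, 0, 0, 0), [1])]
def gB2 : List (ℕ × ℕ × (ℕ × ℕ × ℕ × ℕ) × List ℕ) := [(0, 6, (0, 0, 0, 0), [0]),
  (0, 8, (0, 0, 0, 0), [1, 2])]
def gB3 : List (ℕ × ℕ × (ℕ × ℕ × ℕ × ℕ) × List ℕ) := [(0, 6, (0, 0, 0, 0), [0]),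
  (0, 8, (0, 0, 0, 0), [1, 2, 3])]
def gB4 : List (ℕ × ℕ × (ℕ × ℕ × ℕ × ℕ) × List ℕ) := [(0, 6, (0, 0, 0, 0), [0]),
  (0, 8, (0, 0, 0, 0), [1, 2, 3])]
def gB5 : List (ℕ × ℕ × (ℕ × ℕ × ℕ × ℕ) × List ℕ) := [(0, 8, (0, 0, 0, 0), [4])]
def gB6 : List (ℕ × ℕ × (ℕ × ℕ × ℕ × ℕ) × List ℕ) := [(0, 6, (1, 1, 1, 0), [0, 5]),
  (0, 8, (0, 0, 0, 0), [1, 2])]
def gB7 : List (ℕ × ℕ × (ℕ × ℕ × ℕ × ℕ) × List ℕ) := [(0, 8, (0, 0, 0, 0), [3, 4])]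
def gB8 : List (ℕ × ℕ × (ℕ × ℕ × ℕ × ℕ) × List ℕ) := [(0, 6, (0, 0, 0, 0), [5]),
  (0, 6, (0, 0, 0, 1), [0]),
  (0, 8, (0, 0, 0, 0), [1, 2])]
def gB9 : List (ℕ × ℕ × (ℕ × ℕ × ℕ × ℕ) × List ℕ) := [(0, 8, (0, 0, 0, 0), [3, 4, 6])]
def gB10 : List (ℕ × ℕ × (ℕ × ℕ × ℕ × ℕ) × List ℕ) := [(0, 6, (0, 0, 0, 0), [0, 5]),
  (0, 8, (0, 0, 0, 0), [1, 2])]
def gB11 : List (ℕ × ℕ × (ℕ × ℕ × ℕ × ℕ) × List ℕ) := [(0, 8, (0, 0, 0, 0), [3, 4, 6, 7])]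
def gB12 : List (ℕ × ℕ × (ℕ × ℕ × ℕ × ℕ) × List ℕ) := [(0, 6, (0, 0, 0, 0), [0, 5]),
  (0, 8, (0, 0, 0, 0), [1, 2])]
def gB13 : List (ℕ × ℕ × (ℕ × ℕ × ℕ × ℕ) × List ℕ) := [(0, 8, (0, 0, 0, 0), [3, 4, 6, 7])]
def gB14 : List (ℕ × ℕ × (ℕ × ℕ × ℕ × ℕ) × List ℕ) := [(0, 8, (0, 0, 0, 0), [8])]
def gB15 : List (ℕ × ℕ × (ℕ × ℕ × ℕ × ℕ) × List ℕ) := [(0, 6, (0, 0, 0, 0), [0, 5]),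
  (0, 8, (0, 0, 0, 0), [1, 2])]
def gB16 : List (ℕ × ℕ × (ℕ × ℕ × ℕ × ℕ) × List ℕ) := [(0, 8, (0, 0, 0, 0), [3, 4, 6, 7])]
def gB17 : List (ℕ × ℕ × (ℕ × ℕ × ℕ × ℕ) × List ℕ) := [(0, 8, (0, 0, 0, 0), [8, 9])]
def gB18 : List (ℕ × ℕ × (ℕ × ℕ × ℕ × ℕ) × List ℕ) := [(0, 6, (1, 0, 0, 0), [10]),
  (0, 6, (1, 1, 0, 0), [0, 5]),
  (0, 8, (0, 0, 0, 0), [1])]
def gB19 : List (ℕ × ℕ × (ℕ × ℕ × ℕ × ℕ) × List ℕ) := [(0, 8, (0, 0, 0, 0), [2, 3, 4, 6])]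
def gB20 : List (ℕ × ℕ × (ℕ × ℕ × ℕ × ℕ) × List ℕ) := [(0, 8, (0, 0, 0, 0), [7, 8, 9])]
def gB21 : List (ℕ × ℕ × (ℕ × ℕ × ℕ × ℕ) × List ℕ) := [(0, 6, (0, 0, 0, 0), [5, 10]),
  (0, 6, (0, 0, 0, 1), [0]),
  (0, 8, (0, 0, 0, 0), [1])]
def gB22 : List (ℕ × ℕ × (ℕ × ℕ × ℕ × ℕ) × List ℕ) := [(0, 8, (0, 0, 0, 0), [2, 3, 4, 6])]
def gB23 : List (ℕ × ℕ × (ℕ × ℕ × ℕ × ℕ) × List ℕ) := [(0, 8, (0, 0, 0, 0), [7, 8, 9, 11])]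
def gB24 : List (ℕ × ℕ × (ℕ × ℕ × ℕ × ℕ) × List ℕ) := [(0, 6, (0, 0, 0, 0), [5, 10]),
  (0, 8, (0, 0, 0, 0), [1, 2])]
def gB25 : List (ℕ × ℕ × (ℕ × ℕ × ℕ × ℕ) × List ℕ) := [(0, 8, (0, 0, 0, 0), [3, 4, 6, 7])]
def gB26 : List (ℕ × ℕ × (ℕ × ℕ × ℕ × ℕ) × List ℕ) := [(0, 8, (0, 0, 0, 0), [8, 9, 11, 12])]
def gB27 : List (ℕ × ℕ × (ℕ × ℕ × ℕ × ℕ) × List ℕ) := [(1, 6, (0, 0, 0, 0), [0])]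
def gB28 : List (ℕ × ℕ × (ℕ × ℕ × ℕ × ℕ) × List ℕ) := [(0, 6, (0, 0, 0, 0), [0, 5, 10]),
  (0, 8, (0, 0, 0, 0), [1])]
def gB29 : List (ℕ × ℕ × (ℕ × ℕ × ℕ × ℕ) × List ℕ) := [(0, 8, (0, 0, 0, 0), [2, 3, 4, 6])]
def gB30 : List (ℕ × ℕ × (ℕ × ℕ × ℕ × ℕ) × List ℕ) := [(0, 8, (0, 0, 0, 0), [7, 8, 9, 11])]
def gB31 : List (ℕ × ℕ × (ℕ × ℕ × ℕ × ℕ) × List ℕ) := [(0, 8, (0, 0, 0, 0), [12, 13])]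
def gB32 : List (ℕ × ℕ × (ℕ × ℕ × ℕ × ℕ) × List ℕ) := [(0, 6, (0, 0, 0, 0), [0, 5, 10]),
  (0, 8, (0, 0, 0, 0), [1])]
def gB33 : List (ℕ × ℕ × (ℕ × ℕ × ℕ × ℕ) × List ℕ) := [(0, 8, (0, 0, 0, 0), [2, 3, 4, 6])]
def gB34 : List (ℕ × ℕ × (ℕ × ℕ × ℕ × ℕ) × List ℕ) := [(0, 8, (0, 0, 0, 0), [7, 8, 9, 11])]
def gB35 : List (ℕ × ℕ × (ℕ × ℕ × ℕ × ℕ) × List ℕ) := [(0, 8, (0, 0, 0, 0), [12, 13, 14])]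
def gB36 : List (ℕ × ℕ × (ℕ × ℕ × ℕ × ℕ) × List ℕ) := [(0, 6, (1, 0, 0, 0), [10, 15]),
  (0, 6, (1, 1, 0, 0), [0, 5])]
def gB37 : List (ℕ × ℕ × (ℕ × ℕ × ℕ × ℕ) × List ℕ) := [(0, 8, (0, 0, 0, 0), [1, 2, 3, 4])]
def gB38 : List (ℕ × ℕ × (ℕ × ℕ × ℕ × ℕ) × List ℕ) := [(0, 8, (0, 0, 0, 0), [6, 7, 8, 9])]
def gB39 : List (ℕ × ℕ × (ℕ × ℕ × ℕ × ℕ) × List ℕ) := [(0, 8, (0, 0, 0, 0), [11, 12, 13, 14])]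
def gB40 : List (ℕ × ℕ × (ℕ × ℕ × ℕ × ℕ) × List ℕ) := [(0, 6, (0, 0, 0, 0), [0, 5, 10, 15])]
def gB41 : List (ℕ × ℕ × (ℕ × ℕ × ℕ × ℕ) × List ℕ) := [(0, 8, (0, 0, 0, 0), [1, 2, 3, 4])]
def gB42 : List (ℕ × ℕ × (ℕ × ℕ × ℕ × ℕ) × List ℕ) := [(0, 8, (0, 0, 0, 0), [6, 7, 8, 9])]
def gB43 : List (ℕ × ℕ × (ℕ × ℕ × ℕ × ℕ) × List ℕ) := [(0, 8, (0, 0, 0, 0), [11, 12, 13, 14])]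
def gB44 : List (ℕ × ℕ × (ℕ × ℕ × ℕ × ℕ) × List ℕ) := [(0, 8, (0, 0, 0, 0), [16])]
def gB45 : List (ℕ × ℕ × (ℕ × ℕ × ℕ × ℕ) × List ℕ) := [(0, 6, (0, 0, 0, 0), [0, 5, 10, 15])]
def gB46 : List (ℕ × ℕ × (ℕ × ℕ × ℕ × ℕ) × List ℕ) := [(0, 8, (0, 0, 0, 0), [1, 2, 3, 4])]
def gB47 : List (ℕ × ℕ × (ℕ × ℕ × ℕ × ℕ) × List ℕ) := [(0, 8, (0, 0, 0, 0), [6, 7, 8, 9])]
def gB48 : List (ℕ × ℕ × (ℕ × ℕ × ℕ × ℕ) × List ℕ) := [(0, 8, (0, 0, 0, 0), [11, 12, 13, 14])]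
def gB49 : List (ℕ × ℕ × (ℕ × ℕ × ℕ × ℕ) × List ℕ) := [(0, 8, (0, 0, 0, 0), [16, 17])]
def gB50 : List (ℕ × ℕ × (ℕ × ℕ × ℕ × ℕ) × List ℕ) := [(0, 6, (0, 0, 0, 0), [0, 5, 10, 15])]
def gB51 : List (ℕ × ℕ × (ℕ × ℕ × ℕ × ℕ) × List ℕ) := [(0, 8, (0, 0, 0, 0), [1, 2, 3, 4])]
def gB52 : List (ℕ × ℕ × (ℕ × ℕ × ℕ × ℕ) × List ℕ) := [(0, 8, (0, 0, 0, 0), [6, 7, 8, 9])]
def gB53 : List (ℕ × ℕ × (ℕ × ℕ × ℕ × ℕ) × List ℕ) := [(0, 8, (0, 0, 0, 0), [11, 12, 13, 14])]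
def gB54 : List (ℕ × ℕ × (ℕ × ℕ × ℕ × ℕ) × List ℕ) := [(0, 8, (0, 0, 0, 0), [16, 17, 18])]
def gB55 : List (ℕ × ℕ × (ℕ × ℕ × ℕ × ℕ) × List ℕ) := [(0, 6, (0, 0, 0, 0), [0, 5, 10, 15])]
def gB56 : List (ℕ × ℕ × (ℕ × ℕ × ℕ × ℕ) × List ℕ) := [(0, 8, (0, 0, 0, 0), [1, 2, 3, 4])]
def gB57 : List (ℕ × ℕ × (ℕ × ℕ × ℕ × ℕ) × List ℕ) := [(0, 8, (0, 0, 0, 0), [6, 7, 8, 9])]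
def gB58 : List (ℕ × ℕ × (ℕ × ℕ × ℕ × ℕ) × List ℕ) := [(0, 8, (0, 0, 0, 0), [11, 12, 13, 14])]
def gB59 : List (ℕ × ℕ × (ℕ × ℕ × ℕ × ℕ) × List ℕ) := [(0, 8, (0, 0, 0, 0), [16, 17, 18, 19])]
def gB60 : List (ℕ × ℕ × (ℕ × ℕ × ℕ × ℕ) × List ℕ) := [(0, 6, (1, 0, 0, 0), [10, 15, 20]),
  (0, 6, (1, 1, 0, 0), [0])]
def gB61 : List (ℕ × ℕ × (ℕ × ℕ × ℕ × ℕ) × List ℕ) := [(0, 6, (1, 1, 0, 0), [5]),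
  (0, 8, (0, 0, 0, 0), [1, 2, 3])]
def gB62 : List (ℕ × ℕ × (ℕ × ℕ × ℕ × ℕ) × List ℕ) := [(0, 8, (0, 0, 0, 0), [4, 6, 7, 8])]
def gB63 : List (ℕ × ℕ × (ℕ × ℕ × ℕ × ℕ) × List ℕ) := [(0, 8, (0, 0, 0, 0), [9, 11, 12, 13])]
def gB64 : List (ℕ × ℕ × (ℕ × ℕ × ℕ × ℕ) × List ℕ) := [(0, 8, (0, 0, 0, 0), [14, 16, 17, 18])]
def gB65 : List (ℕ × ℕ × (ℕ × ℕ × ℕ × ℕ) × List ℕ) := [(0, 8, (0, 0, 0, 0), [19])]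
def gB66 : List (ℕ × ℕ × (ℕ × ℕ × ℕ × ℕ) × List ℕ) := [(0, 6, (0, 0, 0, 0), [0, 5, 10, 15])]
def gB67 : List (ℕ × ℕ × (ℕ × ℕ × ℕ × ℕ) × List ℕ) := [(0, 6, (0, 0, 0, 0), [20]),
  (0, 8, (0, 0, 0, 0), [1, 2, 3])]
def gB68 : List (ℕ × ℕ × (ℕ × ℕ × ℕ × ℕ) × List ℕ) := [(0, 8, (0, 0, 0, 0), [4, 6, 7, 8])]
def gB69 : List (ℕ × ℕ × (ℕ × ℕ × ℕ × ℕ) × List ℕ) := [(0, 8, (0, 0, 0, 0), [9, 11, 12, 13])]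
def gB70 : List (ℕ × ℕ × (ℕ × ℕ × ℕ × ℕ) × List ℕ) := [(0, 8, (0, 0, 0, 0), [14, 16, 17, 18])]
def gB71 : List (ℕ × ℕ × (ℕ × ℕ × ℕ × ℕ) × List ℕ) := [(0, 8, (0, 0, 0, 0), [19, 21])]
def gB72 : List (ℕ × ℕ × (ℕ × ℕ × ℕ × ℕ) × List ℕ) := [(0, 6, (0, 0, 0, 0), [0, 5, 10, 15])]
def gB73 : List (ℕ × ℕ × (ℕ × ℕ × ℕ × ℕ) × List ℕ) := [(0, 6, (0, 0, 0, 0), [20]),
  (0, 8, (0, 0, 0, 0), [1, 2, 3])]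
def gB74 : List (ℕ × ℕ × (ℕ × ℕ × ℕ × ℕ) × List ℕ) := [(0, 8, (0, 0, 0, 0), [4, 6, 7, 8])]
def gB75 : List (ℕ × ℕ × (ℕ × ℕ × ℕ × ℕ) × List ℕ) := [(0, 8, (0, 0, 0, 0), [9, 11, 12, 13])]
def gB76 : List (ℕ × ℕ × (ℕ × ℕ × ℕ × ℕ) × List ℕ) := [(0, 8, (0, 0, 0, 0), [14, 16, 17, 18])]
def gB77 : List (ℕ × ℕ × (ℕ × ℕ × ℕ × ℕ) × List ℕ) := [(0, 8, (0, 0, 0, 0), [19, 21, 22])]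
def gB78 : List (ℕ × ℕ × (ℕ × ℕ × ℕ × ℕ) × List ℕ) := [(0, 6, (0, 0, 0, 0), [0, 5, 10, 15])]
def gB79 : List (ℕ × ℕ × (ℕ × ℕ × ℕ × ℕ) × List ℕ) := [(0, 6, (0, 0, 0, 0), [20]),
  (0, 8, (0, 0, 0, 0), [1, 2, 3])]
def gB80 : List (ℕ × ℕ × (ℕ × ℕ × ℕ × ℕ) × List ℕ) := [(0, 8, (0, 0, 0, 0), [4, 6, 7, 8])]
def gB81 : List (ℕ × ℕ × (ℕ × ℕ × ℕ × ℕ) × List ℕ) := [(0, 8, (0, 0, 0, 0), [9, 11, 12, 13])]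
def gB82 : List (ℕ × ℕ × (ℕ × ℕ × ℕ × ℕ) × List ℕ) := [(0, 8, (0, 0, 0, 0), [14, 16, 17, 18])]
def gB83 : List (ℕ × ℕ × (ℕ × ℕ × ℕ × ℕ) × List ℕ) := [(0, 8, (0, 0, 0, 0), [19, 21, 22, 23])]
def gB84 : List (ℕ × ℕ × (ℕ × ℕ × ℕ × ℕ) × List ℕ) := [(0, 6, (0, 0, 0, 0), [0, 5, 10, 15])]
def gB85 : List (ℕ × ℕ × (ℕ × ℕ × ℕ × ℕ) × List ℕ) := [(0, 6, (0, 0, 0, 0), [20]),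
  (0, 8, (0, 0, 0, 0), [1, 2, 3])]
def gB86 : List (ℕ × ℕ × (ℕ × ℕ × ℕ × ℕ) × List ℕ) := [(0, 8, (0, 0, 0, 0), [6, 7, 8, 9])]
def gB87 : List (ℕ × ℕ × (ℕ × ℕ × ℕ × ℕ) × List ℕ) := [(0, 8, (0, 0, 0, 0), [11, 12, 13, 14])]
def gB88 : List (ℕ × ℕ × (ℕ × ℕ × ℕ × ℕ) × List ℕ) := [(0, 8, (0, 0, 0, 0), [16, 17, 18, 19])]
def gB89 : List (ℕ × ℕ × (ℕ × ℕ × ℕ × ℕ) × List ℕ) := [(0, 8, (0, 0, 0, 0), [21, 22, 23, 24])]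
def gB90 : List (ℕ × ℕ × (ℕ × ℕ × ℕ × ℕ) × List ℕ) := [(2, 8, (0, 0, 0, 0), [4])]

/-- all chunks: first cell, groups of second cells -/
def gsB : List (ℕ × List (ℕ × ℕ × (ℕ × ℕ × ℕ × ℕ) × List ℕ)) := [(0, gB0),
  (1, gB1),
  (2, gB2),
  (3, gB3),
  (4, gB4),
  (4, gB5),
  (5, gB6),
  (5, gB7),
  (6, gB8),
  (6, gB9),
  (7, gB10),
  (7, gB11),
  (8, gB12),
  (8, gB13),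
  (8, gB14),
  (9, gB15),
  (9, gB16),
  (9, gB17),
  (10, gB18),
  (10, gB19),
  (10, gB20),
  (11, gB21),
  (11, gB22),
  (11, gB23),
  (12, gB24),
  (12, gB25),
  (12, gB26),
  (12, gB27),
  (13, gB28),
  (13, gB29),
  (13, gB30),
  (13, gB31),
  (14, gB32),
  (14, gB33),
  (14, gB34),
  (14, gB35),
  (15, gB36),
  (15, gB37),
  (15, gB38),
  (15, gB39),
  (16, gB40),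
  (16, gB41),
  (16, gB42),
  (16, gB43),
  (16, gB44),
  (17, gB45),
  (17, gB46),
  (17, gB47),
  (17, gB48),
  (17, gB49),
  (18, gB50),
  (18, gB51),
  (18, gB52),
  (18, gB53),
  (18, gB54),
  (19, gB55),
  (19, gB56),
  (19, gB57),
  (19, gB58),
  (19, gB59),
  (20, gB60),
  (20, gB61),
  (20, gB62),
  (20, gB63),
  (20, gB64),
  (20, gB65),
  (21, gB66),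
  (21, gB67),
  (21, gB68),
  (21, gB69),
  (21, gB70),
  (21, gB71),
  (22, gB72),
  (22, gB73),
  (22, gB74),
  (22, gB75),
  (22, gB76),
  (22, gB77),
  (23, gB78),
  (23, gB79),
  (23, gB80),
  (23, gB81),
  (23, gB82),
  (23, gB83),
  (24, gB84),
  (24, gB85),
  (24, gB86),
  (24, gB87),
  (24, gB88),
  (24, gB89),
  (24, gB90)]

end Vale.Agent.Lib.P154.Q4.Net
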